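import Vale.Agent.P307.Pw.Base
import Vale.Agent.P307.Ow.Flasque
import Vale.Agent.P307.H67.Thresh

/-!
Categoricity transfer for classes with a family indexed by linear orders.
-/

universe u

open FirstOrder Cardinal Function Language

namespace Vale.Agent.P307.Pw

open H227

variable {L : Language.{u, u}}

/-- A class with a family indexed by linear orders which is categorical in arbitrarily large
cardinals is categorical in all sufficiently large cardinals. -/
theorem eventually_of_fam {K : AEC L} (F : Fam K) {l : Cardinal.{u}} (hK : F.Ok l)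
    (hF : F.Moves) (hC : F.HomGe l)
    (h : ∀ χ : Cardinal.{u}, ∃ κ, χ ≤ κ ∧ K.CategoricalIn κ) :
    ∃ χ : Cardinal.{u}, ∀ κ, χ ≤ κ → K.CategoricalIn κ := by
  obtain ⟨k, h1, h2, -, h4, h5⟩ := (F.toOSys hF).flasque {κ | max l ℵ₀ < κ ∧ K.CategoricalIn κ} (by
    intro a
    obtain ⟨κ, h1, h2⟩ := h (max a (Order.succ (max l ℵ₀)))
    exact ⟨κ, ⟨Order.succ_le_iff.1 ((le_max_right _ _).trans h1), h2⟩,
      (le_max_left _ _).trans h1⟩)
  have hbdd : BddAbove (Set.range k) := bddAbove_of_small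
  have hk0 : max l ℵ₀ < k 0 := (h2 0).1
  have hbase : F.Std (⨆ n, k n) :=
    Fam.std_base hF hK hC k h1 hk0
      (fun n => Fam.Std.of_cat hK (h2 n).1 (h2 n).2) h4
  have hθ : max l ℵ₀ < ⨆ n, k n := hk0.trans_le (le_ciSup hbdd 0)
  refine ⟨⨆ n, k n, fun κ hκ => ?_⟩
  have hall : ∀ κ, (⨆ n, k n) ≤ κ → F.Std κ := by
    intro κ
    induction κ using WellFoundedLT.induction with
    | ind κ ih =>
      intro hκ
      rcases hκ.eq_or_lt with rfl | hlt
      · exact hbase
      · exact Fam.std_step hF hK hC hθ hlt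
          (fun κ' h6 h7 => ih κ' h7 h6) (fun X Y _ _ i h6 h7 => h5 X Y i h6 h7)
  exact (hall κ hκ).cat hK (hθ.trans_le hκ)

end Vale.Agent.P307.Pw
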