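import Vale.Agent.P307.Pw.Defs
import Vale.Agent.P307.Pw.Pts
import Vale.Agent.P307.Pw.Top

/-! The family of a class with geometric members, conjugacy at one cardinal. -/

universe u

open FirstOrder Cardinal Set Function Language

namespace Vale.Agent.P307.Pw

open Ow (le_map le_comap map_comap map_le_range PreFamily)
open Gw (flat indep_range_iff)
open H227 (inc incl lft rgt)

variable {L : Language.{u, u}} {K : AEC L}

/-- The family of Ehrenfeucht-Mostowski models with their matroids. -/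
theorem exists_fam (P : PreFamily K)
    (hG : ∀ (I : Type u) [LinearOrder I], Nonempty (Geo K (P.obj I))) :
    ∃ (F : Fam K) (h : ∀ (I : Type u) (_ : LinearOrder I), Geo K (F.obj I))
      (r : ∀ (I : Type u) (lo : LinearOrder I), I → (h I lo).X),
      (∀ (I : Type u) (lo : LinearOrder I), Injective (r I lo)) ∧
      (∀ (I : Type u) (lo : LinearOrder I), (h I lo).Mt.IsBase (range (r I lo))) ∧
      ∀ (I : Type u) (lo : LinearOrder I) (A : Set I), F.sub A = (h I lo).sp (r I lo '' A) := by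
  classical
  have g : ∀ (I : Type u) (lo : LinearOrder I), Geo K (P.obj I) :=
    fun I lo => (hG I).some
  obtain ⟨r, hr1, hr2⟩ := exists_points P g
  have hrE : ∀ (I : Type u) (lo : LinearOrder I) (i : I), r I lo i ∈ (g I lo).Mt.E :=
    fun I lo i => (hr1 I lo).2.subset_ground ⟨i, rfl⟩
  let T : ∀ (I : Type u) [LinearOrder I], L.Substructure (P.obj I) := fun I lo =>
    (g I lo).sp (range (r I lo))
  have hT : ∀ (I : Type u) [LinearOrder I], K.le (T I) := fun I lo => (g I lo).le_sp _
  have himg : ∀ {I J : Type u} [LinearOrder I] [LinearOrder J] (i : I ↪o J),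
      (T I).map (P.map i).toHom = (g J inferInstance).sp (r J inferInstance '' range i) := by
    intro I J lo lo' i
    have h1 := hr2 I J lo lo' i univ
    rw [image_univ, image_univ] at h1
    exact h1
  have hmaps : ∀ {I J : Type u} [LinearOrder I] [LinearOrder J] (i : I ↪o J) (a : T I),
      P.map i a.1 ∈ T J := by
    intro I J _ _ i a
    have h1 : P.map i a.1 ∈ (T I).map (P.map i).toHom := ⟨a.1, a.2, rfl⟩
    rw [himg] at h1
    exact (g J inferInstance).sp_mono (image_subset_range _ _) h1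
  let m : ∀ {I J : Type u} [LinearOrder I] [LinearOrder J] (_ : I ↪o J), (T I ↪[L] T J) :=
    fun {I J} _ _ i => Embedding.codRestrict (T J) ((P.map i).comp (T I).subtype) (hmaps i)
  have hrange : ∀ (I : Type u) [LinearOrder I] (A : Set I),
      (m (OrderEmbedding.subtype (· ∈ A))).toHom.range.map (T I).subtype.toHom =
        (g I inferInstance).sp (r I inferInstance '' A) := by
    intro I _ A
    have h1 := himg (OrderEmbedding.subtype (· ∈ A))
    have h2 : range (OrderEmbedding.subtype (· ∈ A)) = A := Subtype.range_coe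
    rw [h2] at h1
    rw [← h1]
    ext y
    constructor
    · rintro ⟨_, ⟨z, rfl⟩, rfl⟩
      exact ⟨z.1, z.2, rfl⟩
    · rintro ⟨z, hz, rfl⟩
      exact ⟨_, ⟨⟨z, hz⟩, rfl⟩, rfl⟩
  have hEmb : ∀ (I : Type u) [LinearOrder I], K.Emb (T I).subtype := fun I _ =>
    AEC.emb_subtype.2 (hT I)
  let h : ∀ (I : Type u) (_ : LinearOrder I), Geo K (T I) := fun I lo =>
    (g I lo).restrict (T I).subtype (hEmb I)
  let r' : ∀ (I : Type u) (lo : LinearOrder I), I → (h I lo).X := fun I lo => r I lo
  have himF : ∀ (I : Type u) [LinearOrder I], (g I inferInstance).imF (T I).subtype (hEmb I) =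
      (g I inferInstance).Mt.closure (range (r I inferInstance)) := by
    intro I lo
    have h1 := (g I lo).sp_imF (T I).subtype (hEmb I)
    rw [Substructure.range_subtype] at h1
    have h2 : (g I lo).Mt.closure ((g I lo).imF (T I).subtype (hEmb I)) =
        (g I lo).Mt.closure (range (r I lo)) :=
      subset_antisymm ((g I lo).sp_le_sp.1 h1.le) ((g I lo).sp_le_sp.1 h1.ge)
    rwa [((g I lo).imF_flat (T I).subtype (hEmb I)).closure] at h2
  have hrsub : ∀ (I : Type u) [LinearOrder I], range (r I inferInstance) ⊆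
      (g I inferInstance).imF (T I).subtype (hEmb I) := by
    intro I lo
    rw [himF]
    exact (g I lo).Mt.subset_closure _ (hr1 I lo).2.subset_ground
  have hbase : ∀ (I : Type u) (lo : LinearOrder I), (h I lo).Mt.IsBase (range (r' I lo)) := by
    intro I lo
    change ((g I lo).Mt.restrict ((g I lo).imF (T I).subtype (hEmb I))).IsBase (range (r I lo))
    rw [Matroid.isBase_restrict_iff ((g I lo).imF_flat _ _).subset_ground, himF]
    exact (hr1 I lo).2.isBasis_closure
  have hinj : ∀ (I : Type u) (lo : LinearOrder I), Injective (r' I lo) := fun I lo => (hr1 I lo).1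
  have hspm : ∀ (I : Type u) (lo : LinearOrder I) (A : Set I),
      ((h I lo).sp (r' I lo '' A)).map (T I).subtype.toHom =
        (g I lo).sp (r I lo '' A) := fun I lo A =>
    (g I lo).map_restrict_sp (T I).subtype (hEmb I) ((image_subset_range _ _).trans (hrsub I))
  have hsub : ∀ (I : Type u) (lo : LinearOrder I) (A : Set I),
      (m (OrderEmbedding.subtype (· ∈ A))).toHom.range = (h I lo).sp (r' I lo '' A) := by
    intro I lo A
    apply strong_map_injective (T I).subtype
    rw [hrange, hspm]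
  refine ⟨{ obj := fun I _ => T I, str := fun I _ => inferInstance, map := fun i => m i,
            map_refl := fun a => Subtype.ext (P.map_refl _),
            map_trans := fun i j a => Subtype.ext (P.map_trans _ _ _),
            emb_map := ?_, mono := ?_, fin := ?_ }, h, r', hinj, hbase, hsub⟩
  · intro I J _ _ i
    refine AEC.Emb.of_comp (hEmb J) ?_
    have h1 : (T J).subtype.comp (m i) = (P.map i).comp (T I).subtype := by
      apply Language.Embedding.ext
      intro x
      rfl
    rw [h1]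
    exact AEC.Emb.comp (P.emb i) (hEmb I)
  · intro I lo A B hAB a ha
    rw [hsub I lo, hsub I lo] at hAB
    by_contra hb
    have h1 := (indep_range_iff (r' I lo) fun i => (hbase I lo).subset_ground ⟨i, rfl⟩).1
      ⟨hinj I lo, (hbase I lo).indep⟩ a
    apply h1
    have h3 : r' I lo a ∈ r' I lo '' A := ⟨a, ha, rfl⟩
    have h2 := ((h I lo).sp_mono (singleton_subset_iff.2 h3)).trans hAB
    rw [(h I lo).pt_le_sp ((hbase I lo).subset_ground ⟨a, rfl⟩)] at h2
    have h4 : B ⊆ {a}ᶜ := fun b hb' h3 => hb (mem_singleton_iff.1 h3 ▸ hb')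
    exact (h I lo).Mt.closure_subset_closure (image_mono h4) h2
  · intro I lo a
    let F : Finset I → L.Substructure (P.obj I) := fun s =>
      (g I lo).sp (r I lo '' (s : Set I))
    have hFm : Monotone F := fun s t hst => (g I lo).sp_mono (image_mono hst)
    have h1 : K.le (⨆ s, F s) := AEC.le_iSup_finset F hFm fun s => (g I lo).le_sp _
    have h2 : T I ≤ ⨆ s, F s := by
      rw [(g I lo).sp_le_iff (hr1 I lo).2.subset_ground h1]
      rintro _ ⟨i, rfl⟩
      refine le_trans ?_ (le_iSup F {i})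
      exact (g I lo).sp_mono (singleton_subset_iff.2 ⟨i, by simp, rfl⟩)
    have h3 := h2 a.2
    rw [Substructure.mem_iSup_of_directed (directed_of_isDirected_le hFm)] at h3
    obtain ⟨s, hs⟩ := h3
    refine ⟨(s : Set I), s.finite_toSet, ?_⟩
    change a.1 ∈ (g I lo).sp (r I lo '' (s : Set I)) at hs
    rw [← hrange] at hs
    obtain ⟨y, hy, hya⟩ := hs
    have : y = a := Subtype.ext hya
    rw [← this]
    exact hy

/-- Lattice structure of strong substructures. -/
theorem geo_of_emb {M N : Type u} [L.Structure M] [L.Structure N]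
    (φ : M ↪[L] N) (hφ : K.Emb φ) (h : Nonempty (Geo K N)) : Nonempty (Geo K M) := by
  obtain ⟨h⟩ := h
  exact ⟨h.restrict φ hφ⟩

/-- The lattice structure of Ehrenfeucht-Mostowski models. -/
theorem preFamily_geo (P : PreFamily K)
    (hgeo : ∀ a : Cardinal.{u}, ∃ κ, a ≤ κ ∧ K.CategoricalIn κ ∧
      ∃ (M : Type u) (_ : L.Structure M), K.mem M ∧ #M = κ ∧ Nonempty (Geo K M))
    (I : Type u) [LinearOrder I] : Nonempty (Geo K (P.obj I)) := by
  classical
  have hK : K.IsLS K.LS := AEC.isLS_LS K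
  obtain ⟨κ, hκ, hcκ, M, _, hM1, hM2, hM3⟩ := hgeo (max K.LS #(P.obj I))
  have hκ0 : ℵ₀ ≤ κ := hK.1.trans ((le_max_left _ _).trans hκ)
  obtain ⟨J, hJ, hJκ⟩ := P.large κ
  let T : Type u := I ⊕ₗ J
  let iI : I ↪o T := H227.lft
  let iJ : J ↪o T := H227.rgt
  have hT : κ ≤ #(P.obj T) := hJκ.trans (mk_le_of_injective (P.map iJ).injective)
  obtain ⟨A, hA⟩ := le_mk_iff_exists_set.1 hT
  obtain ⟨S, hS1, hS2, hS3⟩ := hK.2.2 (P.obj T) (P.mem_obj T) (A ∪ range (P.map iI))
  have hSκ : #S = κ := by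
    apply le_antisymm
    · refine hS3.trans (add_le_of_le hκ0 ?_ ((le_max_left _ _).trans hκ))
      refine (mk_union_le _ _).trans (add_le_of_le hκ0 hA.le (mk_range_le.trans ?_))
      exact (le_max_right _ _).trans hκ
    · rw [← hA]
      exact mk_le_mk_of_subset (subset_union_left.trans hS2)
  obtain ⟨e⟩ := hcκ.2 S M (K.mem_of_le _ hS1).1 hM1 hSκ hM2
  have hB : Nonempty (Geo K S) :=
    geo_of_emb e.toEmbedding (AEC.Emb.of_equiv e (K.mem_of_le _ hS1).1) hM3
  let ψ : P.obj I ↪[L] S := Embedding.codRestrict S (P.map iI) fun x =>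
    hS2 (Or.inr ⟨x, rfl⟩)
  have hψ : K.Emb ψ := by
    refine AEC.Emb.of_comp (g := S.subtype) (AEC.emb_subtype.2 hS1) ?_
    have h1 : S.subtype.comp ψ = P.map iI := by
      apply Language.Embedding.ext
      intro x
      rfl
    rw [h1]
    exact P.emb iI
  exact geo_of_emb ψ hψ hB

namespace Geo

variable {M N : Type u} [L.Structure M] [L.Structure N]

/-- Any two bases are conjugate. -/
def Conj (g : Geo K M) : Prop :=
  ∀ B B' : Set g.X, g.Mt.IsBase B → g.Mt.IsBase B' → ∃ σ : M ≃[L] M,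
    ∀ b ∈ B, ∃ b' ∈ B', (g.sp {b}).map σ.toHom = g.sp {b'}

theorem sp_base (g : Geo K M) (hM : K.mem M) {B : Set g.X} (hB : g.Mt.IsBase B) :
    g.sp B = ⊤ := by
  rw [eq_top_iff]
  obtain ⟨F, hF, h1⟩ := g.exists_sp (K.le_refl hM)
  rw [← h1, g.sp_le_sp, hF.closure, hB.closure_eq]
  exact hF.subset_ground

theorem base_of_sp (g : Geo K M) {B : Set g.X} (hI : g.Mt.Indep B) (hB : g.sp B = ⊤) :
    g.Mt.IsBase B := by
  apply hI.isBase_of_ground_subset_closure
  have h1 : g.sp g.Mt.E ≤ g.sp B := by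
    rw [hB]
    exact le_top
  rwa [g.sp_le_sp, g.Mt.closure_ground] at h1

/-- Independent families are conjugate to parts of a given base, if `N` is isomorphic to a member
with conjugate bases. -/
theorem exists_std1 (g : Geo K M) (hg : g.Conj) (h : Geo K N) (φ : N ≃[L] M) (hN : K.mem N)
    {ι J : Type u} (r : J → h.X) (hr : Injective r) (hB : h.Mt.IsBase (range r))
    (b : ι → h.X) (hb : Injective b) (hI : h.Mt.Indep (range b)) :
    ∃ (σ : N ≃[L] N) (t : ι → J), Injective t ∧
      ∀ A : Set ι, (h.sp (b '' A)).map σ.toEmbedding.toHom = h.sp (r '' (t '' A)) := by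
  obtain ⟨B', hB', hsub⟩ := hI.exists_isBase_superset
  have hφ : K.Emb φ.toEmbedding := AEC.Emb.of_equiv φ hN
  obtain ⟨c, hc1, hc2, hc3⟩ := h.push g φ.toEmbedding hφ (fun x : B' => x.1)
    Subtype.val_injective (by
      rw [Subtype.range_coe]
      exact hB'.indep)
  obtain ⟨d, hd1, hd2, hd3⟩ := h.push g φ.toEmbedding hφ r hr hB.indep
  have htop : (⊤ : L.Substructure N).map φ.toEmbedding.toHom = ⊤ := by
    rw [eq_top_iff]
    intro x _
    exact ⟨φ.symm x, trivial, φ.apply_symm_apply x⟩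
  have hcb : g.Mt.IsBase (range c) := by
    refine g.base_of_sp hc2 ?_
    have h1 := hc3 univ
    rw [image_univ, image_univ, Subtype.range_coe, h.sp_base hN hB', htop] at h1
    exact h1.symm
  have hdb : g.Mt.IsBase (range d) := by
    refine g.base_of_sp hd2 ?_
    have h1 := hd3 univ
    rw [image_univ, image_univ, h.sp_base hN hB, htop] at h1
    exact h1.symm
  obtain ⟨σ₀, hσ₀⟩ := hg (range c) (range d) hcb hdb
  have h3 : ∀ x : B', ∃ j, (g.sp {c x}).map σ₀.toHom = g.sp {d j} := by
    intro x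
    obtain ⟨_, ⟨j, rfl⟩, h4⟩ := hσ₀ (c x) ⟨x, rfl⟩
    exact ⟨j, h4⟩
  choose t0 ht0 using h3
  let σ : N ≃[L] N := φ.symm.comp (σ₀.comp φ)
  have hσ : K.Emb σ.toEmbedding := AEC.Emb.of_equiv σ hN
  have hφσ : ∀ x, φ (σ x) = σ₀ (φ x) := fun x => φ.apply_symm_apply _
  have hc3' : ∀ x : B', (h.sp {x.1}).map φ.toEmbedding.toHom = g.sp {c x} := by
    intro x
    have h4 := hc3 {x}
    rwa [image_singleton, image_singleton] at h4
  have hd3' : ∀ j : J, (h.sp {r j}).map φ.toEmbedding.toHom = g.sp {d j} := by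
    intro j
    have h4 := hd3 {j}
    rwa [image_singleton, image_singleton] at h4
  have hpt : ∀ x : B', (h.sp {x.1}).map σ.toEmbedding.toHom = h.sp {r (t0 x)} := by
    intro x
    apply strong_map_injective φ.toEmbedding
    rw [hd3', ← ht0 x, ← hc3' x]
    ext y
    constructor
    · rintro ⟨_, ⟨z, hz, rfl⟩, rfl⟩
      exact ⟨φ z, ⟨z, hz, rfl⟩, (hφσ z).symm⟩
    · rintro ⟨_, ⟨z, hz, rfl⟩, rfl⟩
      exact ⟨σ z, ⟨z, hz, rfl⟩, hφσ z⟩
  have hE' : ∀ i, b i ∈ h.Mt.E := fun i => hI.subset_ground ⟨i, rfl⟩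
  have hE : ∀ j, r j ∈ h.Mt.E := fun j => hB.subset_ground ⟨j, rfl⟩
  have h0 := (indep_range_iff b hE').1 ⟨hb, hI⟩
  let t : ι → J := fun i => t0 ⟨b i, hsub ⟨i, rfl⟩⟩
  have ht : ∀ i, (h.sp {b i}).map σ.toEmbedding.toHom = h.sp {r (t i)} := fun i =>
    hpt ⟨b i, hsub ⟨i, rfl⟩⟩
  refine ⟨σ, t, fun i j hij => ?_, fun A => ?_⟩
  · by_contra hne
    have h4 : (h.sp {b i}).map σ.toEmbedding.toHom = (h.sp {b j}).map σ.toEmbedding.toHom := by
      rw [ht, ht, hij]
    have h5 : h.sp {b i} = h.sp {b j} := strong_map_injective σ.toEmbedding h4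
    apply h0 i
    rw [← h.pt_le_sp (hE' i), h5, h.pt_le_sp (hE' j)]
    exact h.Mt.subset_closure _ (by rintro _ ⟨k, -, rfl⟩; exact hE' k)
      ⟨j, fun h => hne h.symm, rfl⟩
  · rw [h.map_sp h σ.toEmbedding hσ b (fun i => r (t i)) hE' (fun i => hE _) A
      fun i _ => ht i, image_image]

end Geo

end Vale.Agent.P307.Pw
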