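import Vale.Agent.P307.Pw.Fam1
import Vale.Agent.P307.Ow.EM

/-! Conjugacy at unboundedly many categoricity cardinals gives conjugacy at all large cardinals. -/

universe u

open FirstOrder Cardinal Set Function Language

namespace Vale.Agent.P307.Pw

open Ow (le_map le_comap map_comap map_le_range PreFamily)
open Gw (flat indep_range_iff)
open H227 (inc incl lft rgt)

variable {L : Language.{u, u}} {K : AEC L}

/-- `κ` is a categoricity cardinal whose member has conjugate bases. -/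
def Good (K : AEC L) (κ : Cardinal.{u}) : Prop :=
  K.CategoricalIn κ ∧ ∃ (M : Type u) (_ : L.Structure M), K.mem M ∧ #M = κ ∧
    ∃ g : Geo K M, g.Conj

theorem ind_of_sp {F : Fam K} {I J : Type u} [LinearOrder I] [LinearOrder J]
    {θ : F.obj I ↪[L] F.obj J} {t : I → J} (ht : Injective t)
    (h' : ∀ A : Set I, (F.sub A).map θ.toHom = F.sub (t '' A)) : F.Ind θ t := by
  refine ⟨ht, fun A a => ?_, fun b hb => ?_⟩
  · rw [← h' A]
    constructor
    · rintro ⟨a', ha', haa⟩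
      have h1 : θ a' = θ a := haa
      rwa [← θ.injective h1]
    · intro ha
      exact ⟨a, ha, rfl⟩
  · rw [← Set.image_univ, ← h'] at hb
    obtain ⟨a, -, ha⟩ := hb
    exact ⟨a, ha⟩

section

variable (F : Fam K) (h : ∀ (I : Type u) (_ : LinearOrder I), Geo K (F.obj I))
  (r : ∀ (I : Type u) (lo : LinearOrder I), I → (h I lo).X)
  (hinj : ∀ (I : Type u) (lo : LinearOrder I), Injective (r I lo))
  (hbase : ∀ (I : Type u) (lo : LinearOrder I), (h I lo).Mt.IsBase (range (r I lo)))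
  (hsub : ∀ (I : Type u) (lo : LinearOrder I) (A : Set I), F.sub A = (h I lo).sp (r I lo '' A))

include hinj hbase hsub

theorem exists_std2 {J ι : Type u} [lo : LinearOrder J]
    {l : Cardinal.{u}} (hK : F.Ok l) (hJ : max l ℵ₀ < #J) (hg : Good K #J)
    (b : ι → (h J lo).X) (hb : Injective b) (hI : (h J lo).Mt.Indep (range b)) :
    ∃ (σ : F.obj J ≃[L] F.obj J) (t : ι → J), Injective t ∧
      ∀ A : Set ι, ((h J lo).sp (b '' A)).map σ.toEmbedding.toHom = F.sub (t '' A) := by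
  obtain ⟨hcat, M, _, hM1, hM2, g, hg⟩ := hg
  obtain ⟨φ⟩ := hcat.2 (F.obj J) M (F.mem_obj J) hM1 (Fam.card_obj hK J hJ) hM2
  obtain ⟨σ, t, ht1, ht2⟩ := g.exists_std1 hg (h J lo) φ (F.mem_obj J) (r J lo) (hinj J lo)
    (hbase J lo) b hb hI
  exact ⟨σ, t, ht1, fun A => by rw [ht2, hsub]⟩

theorem homAt_of_good {l κ : Cardinal.{u}} (hK : F.Ok l) (hκ : max l ℵ₀ < κ) (hg : Good K κ) :
    F.HomAt κ := by
  intro I J lo lo' hJ θ hθ
  subst hJ
  obtain ⟨b, hb1, hb2, hb3⟩ := (h I lo).push (h J lo') θ hθ (r I lo) (hinj I lo)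
    (hbase I lo).indep
  obtain ⟨σ, t, ht1, ht2⟩ := exists_std2 F h r hinj hbase hsub hK hκ hg b hb1 hb2
  refine ⟨σ, t, ind_of_sp ht1 fun A => ?_⟩
  rw [← ht2, ← hb3, ← hsub, Substructure.map_map]
  rfl

theorem moves_of_good {l : Cardinal.{u}} (hK : F.Ok l)
    (hgood : ∀ χ : Cardinal.{u}, ∃ κ, χ ≤ κ ∧ Good K κ) : F.Moves := by
  refine Fam.moves_of_unbounded hK fun χ => ?_
  obtain ⟨κ, h1, h2⟩ := hgood (max χ (Order.succ (max l ℵ₀)))
  refine ⟨κ, (le_max_left _ _).trans h1, h2.1, ?_⟩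
  exact homAt_of_good F h r hinj hbase hsub hK
    (Order.succ_le_iff.1 ((le_max_right _ _).trans h1)) h2

theorem exists_std3 {J ι : Type u} [lo : LinearOrder J]
    {l : Cardinal.{u}} (hK : F.Ok l) (hJ : max l ℵ₀ < #J)
    (hgood : ∀ χ : Cardinal.{u}, ∃ κ, χ ≤ κ ∧ Good K κ)
    (b : ι → (h J lo).X) (hb : Injective b) (hI : (h J lo).Mt.Indep (range b)) :
    ∃ (σ : F.obj J ≃[L] F.obj J) (t : ι → J), Injective t ∧
      ∀ A : Set ι, ((h J lo).sp (b '' A)).map σ.toEmbedding.toHom = F.sub (t '' A) := by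
  classical
  have hF : F.Moves := moves_of_good F h r hinj hbase hsub hK hgood
  obtain ⟨κ, hκ1, hκ2⟩ := hgood #J
  have hκ0 : ℵ₀ ≤ κ := ((le_max_right l ℵ₀).trans hJ.le).trans hκ1
  let Z : Type u := J ⊕ₗ κ.ord.ToType
  have hZ : #Z = κ := by
    change #(J ⊕ κ.ord.ToType) = κ
    rw [mk_sum, lift_id, lift_id, mk_ord_toType]
    exact add_eq_right hκ0 hκ1
  let j : J ↪o Z := lft
  obtain ⟨B', hB', hB's⟩ := hI.exists_isBase_superset
  obtain ⟨c, hc1, hc2, hc3⟩ := (h J lo).push (h Z inferInstance) (F.map j) (F.emb_map j)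
    (fun x : B' => x.1) Subtype.val_injective (by
      rw [Subtype.range_coe]
      exact hB'.indep)
  obtain ⟨τ, s, hs1, hs2⟩ := exists_std2 F h r hinj hbase hsub (J := Z) hK
    (by rw [hZ]; exact hJ.trans_le hκ1) (by rw [hZ]; exact hκ2) c hc1 hc2
  let ρ : F.obj J ↪[L] F.obj Z := τ.toEmbedding.comp (F.map j)
  have hρ : ∀ A : Set B', ((h J lo).sp ((fun x : B' => x.1) '' A)).map ρ.toHom =
      F.sub (s '' A) := by
    intro A
    rw [← hs2, ← hc3, Substructure.map_map]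
    rfl
  let W : Set Z := range s
  have hρtop : ρ.toHom.range = F.sub W := by
    have h1 := hρ univ
    rw [image_univ, image_univ, Subtype.range_coe, (h J lo).sp_base (F.mem_obj J) hB'] at h1
    rw [Hom.range_eq_map]
    exact h1
  obtain ⟨ρ', hρ'⟩ := F.exists_cores ρ (inc W) fun n => by
    have h1 : ρ n ∈ ρ.toHom.range := ⟨n, rfl⟩
    rw [hρtop] at h1
    refine F.sub_mono ?_ h1
    exact fun w hw => ⟨⟨w, hw⟩, rfl⟩
  have hρ's : Surjective ρ' := by
    intro y
    have h1 : F.map (inc W) y ∈ ρ.toHom.range := by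
      rw [hρtop]
      exact ⟨y, rfl⟩
    obtain ⟨x, hx⟩ := h1
    refine ⟨x, (F.map (inc W)).injective ?_⟩
    rw [hρ']
    exact hx
  obtain ⟨ε, hε⟩ := Fam.exists_equiv_of_surj ρ' hρ's
  have hcard : #(F.obj W) = #J := by
    rw [← Fam.card_obj hK J hJ]
    exact (mk_congr ε.toEquiv).symm
  have hW : max l ℵ₀ < #W := by
    by_contra h1
    rw [not_lt] at h1
    have h2 : #J ≤ max l ℵ₀ := by
      rw [← hcard]
      exact (Fam.card_obj_le hK W).trans
        (add_le_of_le (le_max_right _ _) h1 (le_max_left _ _))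
    exact absurd hJ (not_lt.2 h2)
  have hWJ : #W = #J := by rw [← hcard, Fam.card_obj hK W hW]
  obtain ⟨β⟩ : Nonempty (W ≃ J) := Cardinal.eq.1 hWJ
  obtain ⟨e, he⟩ := hF.exists_iso β
  let σ : F.obj J ≃[L] F.obj J := e.comp ε
  let t0 : B' → J := fun x => β ⟨s x, x, rfl⟩
  have ht0 : Injective t0 := by
    intro x y hxy
    have h1 := β.injective hxy
    exact hs1 (congrArg Subtype.val h1)
  have hσ : ∀ A : Set B', ((h J lo).sp ((fun x : B' => x.1) '' A)).map σ.toEmbedding.toHom =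
      F.sub (t0 '' A) := by
    intro A
    let A' : Set W := {w | w.1 ∈ s '' A}
    have hA' : inc W '' A' = s '' A := by
      ext z
      constructor
      · rintro ⟨w, hw, rfl⟩
        exact hw
      · rintro ⟨x, hx, rfl⟩
        exact ⟨⟨s x, x, rfl⟩, ⟨x, hx, rfl⟩, rfl⟩
    have hβA : β '' A' = t0 '' A := by
      ext z
      constructor
      · rintro ⟨⟨_, x, rfl⟩, ⟨y, hy, hyx⟩, rfl⟩
        refine ⟨y, hy, ?_⟩
        have : y = x := hs1 hyx
        subst this
        rfl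
      · rintro ⟨x, hx, rfl⟩
        exact ⟨⟨s x, x, rfl⟩, ⟨x, hx, rfl⟩, rfl⟩
    have h1 : ∀ a, a ∈ (h J lo).sp ((fun x : B' => x.1) '' A) ↔ ε a ∈ F.sub A' := by
      intro a
      rw [← F.map_mem_sub_image (inc W), hA', hε, hρ', ← hρ A]
      constructor
      · intro ha
        exact ⟨a, ha, rfl⟩
      · rintro ⟨a', ha', haa⟩
        have h2 : ρ a' = ρ a := haa
        rwa [← ρ.injective h2]
    rw [← hβA]
    ext y
    constructor
    · rintro ⟨a, ha, rfl⟩
      exact (he.mem A' (ε a)).2 ((h1 a).1 ha)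
    · intro hy
      obtain ⟨a, rfl⟩ := σ.surjective y
      exact ⟨a, (h1 a).2 ((he.mem A' (ε a)).1 hy), rfl⟩
  refine ⟨σ, fun i => t0 ⟨b i, hB's ⟨i, rfl⟩⟩, ?_, fun A => ?_⟩
  · intro i i' hii
    exact hb (congrArg Subtype.val (ht0 hii))
  · have h1 := hσ ((fun i => (⟨b i, hB's ⟨i, rfl⟩⟩ : B')) '' A)
    rw [image_image, image_image] at h1
    exact h1

theorem homGe {l : Cardinal.{u}} (hK : F.Ok l)
    (hgood : ∀ χ : Cardinal.{u}, ∃ κ, χ ≤ κ ∧ Good K κ) : F.HomGe l := by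
  intro κ hκ
  constructor
  · intro I J lo lo' hJ θ hθ
    subst hJ
    obtain ⟨b, hb1, hb2, hb3⟩ := (h I lo).push (h J lo') θ hθ (r I lo) (hinj I lo)
      (hbase I lo).indep
    obtain ⟨σ, t, ht1, ht2⟩ := exists_std3 F h r hinj hbase hsub hK hκ hgood b hb1 hb2
    refine ⟨σ, t, ind_of_sp ht1 fun A => ?_⟩
    rw [← ht2, ← hb3, ← hsub, Substructure.map_map]
    rfl
  · intro J lo hJ S hS
    subst hJ
    obtain ⟨Fl, hFl, h1⟩ := (h J lo).exists_sp hS
    obtain ⟨Y, hY⟩ := (h J lo).Mt.exists_isBasis Fl hFl.subset_ground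
    obtain ⟨σ, t, -, ht2⟩ := exists_std3 F h r hinj hbase hsub hK hκ hgood
      (fun y : Y => y.1) Subtype.val_injective (by
        rw [Subtype.range_coe]
        exact hY.indep)
    refine ⟨σ, t '' univ, ?_⟩
    rw [← ht2 univ]
    have h2 : (h J lo).sp ((fun y : Y => y.1) '' univ) = S := by
      rw [image_univ, Subtype.range_coe, ← h1]
      exact le_antisymm ((h J lo).sp_le_sp.2 hY.closure_eq_closure.le)
        ((h J lo).sp_le_sp.2 hY.closure_eq_closure.ge)
    rw [h2]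

end

/-- A class which has arbitrarily large categoricity cardinals whose members have conjugate bases is
categorical in all large cardinals. -/
theorem eventually_of_good {K : AEC L} (hgood : ∀ χ : Cardinal.{u}, ∃ κ, χ ≤ κ ∧ Good K κ) :
    ∃ χ : Cardinal.{u}, ∀ κ, χ ≤ κ → K.CategoricalIn κ := by
  obtain ⟨P⟩ := Ow.exists_preFamily K fun χ => by
    obtain ⟨κ, h1, -, M, h2, h3, h4, -⟩ := hgood χ
    exact ⟨M, h2, h3, h1.trans h4.ge⟩
  obtain ⟨F, h, r, hinj, hbase, hsub⟩ := exists_fam P fun I _ => preFamily_geo P (fun a => by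
    obtain ⟨κ, h1, h0, M, h2, h3, h4, g, -⟩ := hgood a
    exact ⟨κ, h1, h0, M, h2, h3, h4, ⟨g⟩⟩) I
  obtain ⟨l, hK⟩ := F.exists_ok
  exact eventually_of_fam F hK (moves_of_good F h r hinj hbase hsub hK hgood)
    (homGe F h r hinj hbase hsub hK hgood) fun χ => by
      obtain ⟨κ, h1, h2⟩ := hgood χ
      exact ⟨κ, h1, h2.1⟩

end Vale.Agent.P307.Pw
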