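import Vale.Agent.P307.Pw.Fam2
import Vale.Agent.P307.Gw.Code
import Vale.Agent.P307.Ow.Top

/-! The Hanf number for geometric members at a categoricity cardinal. -/

universe u

open FirstOrder Cardinal Set Function Language

namespace Vale.Agent.P307.Pw

open Gw (flat upEquiv upIso)

theorem isGeo1_iff {L : Language.{u, u}} {K : AEC L} {M : Type u} [L.Structure M]
    (hB : IsGeo1 K M) : ∃ g : Geo K M, g.Conj := by
  obtain ⟨X, Mt, e, he⟩ := hB
  refine ⟨⟨X, Mt, e⟩, fun B B' hB hB' => ?_⟩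
  obtain ⟨σ, h2, -⟩ := he B B' hB hB'
  exact ⟨σ, h2⟩

theorem isGeo1_of_part_eq {L : Language.{u, u}} {Λ : Type u} {K₁ K₂ : AEC L}
    (h : K₁.part Λ = K₂.part Λ) (hK₁ : K₁.IsLS #Λ) (hK₂ : K₂.IsLS #Λ) {M : Type u}
    [L.Structure M] (hB : IsGeo1 K₁ M) : IsGeo1 K₂ M := by
  obtain ⟨X, Mt, e, he⟩ := hB
  exact ⟨X, Mt, e.trans
    { toFun := fun S => ⟨S.1, Ow.le_of_part_eq' h hK₁ S.2⟩
      invFun := fun S => ⟨S.1, Ow.le_of_part_eq' h.symm hK₂ S.2⟩
      left_inv := fun _ => rfl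
      right_inv := fun _ => rfl
      map_rel_iff' := Iff.rfl }, he⟩

section equiv

variable {L : Language.{u, u}} {K : AEC L} {M N : Type u} [L.Structure M] [L.Structure N]

theorem map_symm_map (i : M ≃[L] N) (S : L.Substructure M) :
    (S.map i.toHom).map i.symm.toHom = S := by
  ext x
  constructor
  · rintro ⟨_, ⟨y, hy, rfl⟩, rfl⟩
    have h1 : i.symm (i y) = y := i.symm_apply_apply y
    change i.symm (i y) ∈ S
    rw [h1]
    exact hy
  · intro hx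
    exact ⟨i x, ⟨x, hx, rfl⟩, i.symm_apply_apply x⟩

theorem map_map_symm (i : M ≃[L] N) (S : L.Substructure N) :
    (S.map i.symm.toHom).map i.toHom = S := by
  ext x
  constructor
  · rintro ⟨_, ⟨y, hy, rfl⟩, rfl⟩
    have h1 : i (i.symm y) = y := i.apply_symm_apply y
    change i (i.symm y) ∈ S
    rw [h1]
    exact hy
  · intro hx
    exact ⟨i.symm x, ⟨x, hx, rfl⟩, i.apply_symm_apply x⟩

theorem isGeo1_of_equiv (i : M ≃[L] N) (hM : K.mem M) (h : IsGeo1 K N) : IsGeo1 K M := by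
  obtain ⟨X, Mt, e, he⟩ := h
  have hN : K.mem N := K.mem_iso i hM
  let E : {S : L.Substructure N // K.le S} ≃o {S : L.Substructure M // K.le S} :=
    { toFun := fun S => ⟨S.1.map i.symm.toHom, Ow.le_map i.symm.toEmbedding
        (AEC.Emb.of_equiv i.symm hN) S.2⟩
      invFun := fun S => ⟨S.1.map i.toHom, Ow.le_map i.toEmbedding
        (AEC.Emb.of_equiv i hM) S.2⟩
      left_inv := fun S => Subtype.ext (map_map_symm i S.1)
      right_inv := fun S => Subtype.ext (map_symm_map i S.1)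
      map_rel_iff' := by
        intro S T
        constructor
        · intro h1
          have h2 : S.1.map i.symm.toHom ≤ T.1.map i.symm.toHom := h1
          have h3 := Substructure.monotone_map (f := i.toHom) h2
          rw [map_map_symm, map_map_symm] at h3
          exact h3
        · intro h1
          have h2 : S.1 ≤ T.1 := h1
          exact Substructure.monotone_map (f := i.symm.toHom) h2 }
  refine ⟨X, Mt, e.trans E, fun B B' hB hB' => ?_⟩
  obtain ⟨σ, h2, h3⟩ := he B B' hB hB'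
  let τ : M ≃[L] M := i.symm.comp (σ.comp i)
  have hτ : ∀ y, τ (i.symm y) = i.symm (σ y) := by
    intro y
    change i.symm (σ (i (i.symm y))) = i.symm (σ y)
    rw [i.apply_symm_apply]
  have key : ∀ S T : {S : L.Substructure N // K.le S},
      S.1.map σ.toHom = T.1 → (E S).1.map τ.toHom = (E T).1 := by
    intro S T h
    change (S.1.map i.symm.toHom).map τ.toHom = T.1.map i.symm.toHom
    rw [← h]
    ext x
    constructor
    · rintro ⟨_, ⟨y, hy, rfl⟩, rfl⟩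
      exact ⟨σ y, ⟨y, hy, rfl⟩, (hτ y).symm⟩
    · rintro ⟨_, ⟨y, hy, rfl⟩, rfl⟩
      exact ⟨i.symm y, ⟨y, hy, rfl⟩, hτ y⟩
  refine ⟨τ, fun b hb => ?_, fun b' hb' => ?_⟩
  · obtain ⟨b', h4, h5⟩ := h2 b hb
    exact ⟨b', h4, key _ _ h5⟩
  · obtain ⟨b, h4, h5⟩ := h3 b' hb'
    exact ⟨b, h4, key _ _ h5⟩

end equiv

section up

variable {L L' : Language.{u, u}} {φ : L →ᴸ L'}

theorem isGeo1_up (K : AEC L) (hf : ∀ n, Function.Bijective (φ.onFunction (n := n)))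
    (hr : ∀ n, Function.Surjective (φ.onRelation (n := n))) (M : Type u) [L'.Structure M] :
    IsGeo1 (K.up φ hf hr) M ↔ IsGeo1 K (Dn φ M) := by
  let E := upIso K hf hr M
  constructor
  · rintro ⟨X, Mt, e, he⟩
    refine ⟨X, Mt, e.trans E, fun B B' hB hB' => ?_⟩
    obtain ⟨σ, h2, h3⟩ := he B B' hB hB'
    have key : ∀ S T : {S : L'.Substructure M // (K.up φ hf hr).le S},
        S.1.map σ.toHom = T.1 → (E S).1.map (dnEquiv φ σ).toHom = (E T).1 := by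
      intro S T h
      ext x
      have h4 : x ∈ (S.1.map σ.toHom : L'.Substructure M) ↔ x ∈ T.1 := by rw [h]
      exact h4
    refine ⟨dnEquiv φ σ, fun b hb => ?_, fun b' hb' => ?_⟩
    · obtain ⟨b', h4, h5⟩ := h2 b hb
      exact ⟨b', h4, key _ _ h5⟩
    · obtain ⟨b, h4, h5⟩ := h3 b' hb'
      exact ⟨b, h4, key _ _ h5⟩
  · rintro ⟨X, Mt, e, he⟩
    refine ⟨X, Mt, e.trans E.symm, fun B B' hB hB' => ?_⟩
    obtain ⟨σ, h2, h3⟩ := he B B' hB hB'
    have key : ∀ S T : {S : L.Substructure (Dn φ M) // K.le S},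
        S.1.map σ.toHom = T.1 → (E.symm S).1.map (upEquiv hf hr σ).toHom = (E.symm T).1 := by
      intro S T h
      have hS : dn φ (E.symm S).1 = S.1 := congrArg Subtype.val (E.apply_symm_apply S)
      have hT : dn φ (E.symm T).1 = T.1 := congrArg Subtype.val (E.apply_symm_apply T)
      rw [← hS, ← hT] at h
      ext x
      have h4 : x ∈ ((dn φ (E.symm S).1).map σ.toHom : L.Substructure (Dn φ M)) ↔
          x ∈ dn φ (E.symm T).1 := by rw [h]
      exact h4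
    refine ⟨upEquiv hf hr σ, fun b hb => ?_, fun b' hb' => ?_⟩
    · obtain ⟨b', h4, h5⟩ := h2 b hb
      exact ⟨b', h4, key _ _ h5⟩
    · obtain ⟨b, h4, h5⟩ := h3 b' hb'
      exact ⟨b, h4, key _ _ h5⟩

end up

/-- The cardinalities of the geometric members of the classes with a given code. -/
def gspec {Λ : Type u} (c : CodeTy Λ) : Set Cardinal.{u} :=
  {κ | ∃ K : AEC (canLang c.1.1 c.1.2), K.IsLS #Λ ∧ K.part Λ = c.2 ∧
    ∃ (M : Type u) (_ : (canLang c.1.1 c.1.2).Structure M), K.mem M ∧ #M = κ ∧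
      IsGeo1 K M}

theorem exists_gcode {Λ : Type u} {L : Language.{u, u}} (K : AEC L) (hK : K.IsLS #Λ) :
    ∃ c : CodeTy Λ, ∀ κ, κ ∈ gspec c ↔ ∃ (M : Type u) (_ : L.Structure M), K.mem M ∧ #M = κ ∧
      IsGeo1 K M := by
  obtain ⟨A, B, φ, hf, hr⟩ := exists_canLang L Λ hK.2.1
  let K' : AEC (canLang A B) := K.up φ hf (fun n => (hr n).2)
  have hK' : K'.IsLS #Λ := AEC.up_isLS hf (fun n => (hr n).2) hK
  refine ⟨⟨(A, B), K'.part Λ⟩, fun κ => ?_⟩
  constructor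
  · rintro ⟨K'', h1, h2, M, _, h3, h4, h5⟩
    have h6 : IsGeo1 K' M := isGeo1_of_part_eq h2 h1 hK' h5
    exact ⟨Dn φ M, inferInstance, mem_of_part_eq h2 h1 h3, h4,
      (isGeo1_up K hf (fun n => (hr n).2) M).1 h6⟩
  · rintro ⟨M, _, h3, h4, h5⟩
    obtain ⟨s, ⟨e⟩⟩ := exists_expand hf hr M
    have h6 : K.mem (Dn φ M) := K.mem_iso e h3
    have h7 : IsGeo1 K (Dn φ M) := isGeo1_of_equiv e.symm h6 h5
    exact ⟨K', hK', rfl, M, s, h6, h4, (isGeo1_up K hf (fun n => (hr n).2) M).2 h7⟩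

/-- The Hanf number for geometric members at a categoricity cardinal. -/
theorem exists_mu_good (l : Cardinal.{u}) : ∃ μ : Cardinal.{u}, ∀ (L : Language.{u, u})
    (K : AEC L), K.LS ≤ l → ∀ κ : Cardinal.{u}, μ ≤ κ → K.CategoricalIn κ →
      (∃ (M : Type u) (_ : L.Structure M), K.mem M ∧ #M = κ ∧ IsGeo1 K M) →
        ∀ a : Cardinal.{u}, ∃ κ' : Cardinal.{u}, a ≤ κ' ∧ K.CategoricalIn κ' ∧
          ∃ (M : Type u) (_ : L.Structure M), K.mem M ∧ #M = κ' ∧ IsGeo1 K M := by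
  obtain ⟨Λ, hΛ⟩ : ∃ Λ : Type u, #Λ = l := ⟨l.out, mk_out l⟩
  have h : ∀ c : CodeTy Λ × CodeTy Λ, ∃ b : Cardinal.{u},
      (∀ κ, κ ∈ spec c.1 → κ ∈ gspec c.2 → κ ≤ b) ∨
      ∀ b', ∃ κ, (κ ∈ spec c.1 ∧ κ ∈ gspec c.2) ∧ b' < κ := by
    intro c
    by_cases hb : ∃ b : Cardinal.{u}, ∀ κ, κ ∈ spec c.1 → κ ∈ gspec c.2 → κ ≤ b
    · obtain ⟨b, hb⟩ := hb
      exact ⟨b, Or.inl hb⟩
    · push Not at hb
      refine ⟨0, Or.inr fun b' => ?_⟩
      obtain ⟨κ, h1, h2, h3⟩ := hb b'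
      exact ⟨κ, ⟨h1, h2⟩, h3⟩
  choose b hb using h
  have hbdd : BddAbove (Set.range b) := bddAbove_of_small
  refine ⟨Order.succ (⨆ c, b c), ?_⟩
  intro L K hK κ hκ hcat hM a
  have hLS : K.IsLS #Λ := AEC.isLS_of_LS_le (hK.trans hΛ.ge)
  obtain ⟨c, hc, -⟩ := exists_code (Λ := Λ) K hLS
  obtain ⟨d, hd⟩ := exists_gcode (Λ := Λ) K hLS
  rcases hb (c, d) with h4 | h4
  · exfalso
    have h5 : κ ≤ b (c, d) := h4 _ ((hc _).2 hcat) ((hd _).2 hM)
    have h6 : b (c, d) < κ := (Order.lt_succ_of_le (le_ciSup hbdd (c, d))).trans_le hκ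
    exact absurd h5 (not_le.2 h6)
  · obtain ⟨κ', ⟨h5, h6⟩, h7⟩ := h4 a
    exact ⟨κ', h7.le, (hc κ').1 h5, (hd κ').1 h6⟩

/-- Q1 for the classes with one large categoricity cardinal whose member is geometric. -/
theorem q1_geo1 (l : Cardinal.{u}) :
    ∃ μ : Cardinal.{u}, l ≤ μ ∧ ∀ (L : Language.{u, u}) (K : AEC L), K.LS ≤ l →
      ∀ κ : Cardinal.{u}, μ ≤ κ → K.CategoricalIn κ →
        (∃ (M : Type u) (_ : L.Structure M), K.mem M ∧ #M = κ ∧ IsGeo1 K M) →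
          ∀ κ' : Cardinal.{u}, μ ≤ κ' → K.CategoricalIn κ' := by
  obtain ⟨μ₀, hμ₀, hμ⟩ := H67.exists_threshold l
  obtain ⟨μ₁, hμ₁⟩ := exists_mu_good l
  refine ⟨max μ₀ μ₁, hμ₀.trans (le_max_left _ _), ?_⟩
  intro L K hK κ hκ hcat hM κ' hκ'
  have hgood : ∀ χ : Cardinal.{u}, ∃ κ, χ ≤ κ ∧ Good K κ := by
    intro χ
    obtain ⟨κ₁, h1, h2, M, i, h3, h4, h5⟩ :=
      hμ₁ L K hK κ ((le_max_right _ _).trans hκ) hcat hM χ
    exact ⟨κ₁, h1, h2, M, i, h3, h4, isGeo1_iff h5⟩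
  exact hμ L K hK (eventually_of_good hgood) κ' ((le_max_left _ _).trans hκ')

end Vale.Agent.P307.Pw
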