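import Vale.Agent.P307.Pw.Move
import Vale.Agent.P307.H227.Comp

/-!
Compositions of moves: every injection between linear orders is induced by an embedding.
-/

universe u v

open FirstOrder Cardinal Function Language

namespace Vale.Agent.P307.Pw

open H227

variable {L : Language.{u, u}}

namespace Fam

variable {K : AEC L} {F : Fam K}

/-- The limit of a chain of compositions of moves. -/
theorem exists_lim {V W ι : Type u} [LinearOrder V] [LinearOrder W] [LinearOrder ι]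
    [WellFoundedLT ι] [Nonempty ι] (i s : V → W) (M : ι → Set V) (hM : Monotone M)
    (θ : ι → (F.obj V ↪[L] F.obj W)) (hθ : ∀ k, F.Ind (θ k) (tt i s (M k)))
    (hR : ∀ j k, j < k → ∀ u ∈ F.sub {v | v ∈ M j ∨ v ∉ M k}, θ k u = θ j u) :
    ∃ G : F.obj V ↪[L] F.obj W, F.Ind G (tt i s (⋃ k, M k)) ∧
      ∀ k, ∀ u ∈ F.sub {v | v ∈ M k ∨ v ∉ ⋃ k, M k}, G u = θ k u := by
  let S : ι → Set V := fun k => {v | v ∈ M k ∨ v ∉ ⋃ k, M k}
  have hS : Monotone S := by
    rintro j k hjk v (hv | hv)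
    · exact Or.inl (hM hjk hv)
    · exact Or.inr hv
  have hSc : ∀ v, ∃ k, v ∈ S k := by
    intro v
    by_cases hv : v ∈ ⋃ k, M k
    · obtain ⟨k, hk⟩ := Set.mem_iUnion.1 hv
      exact ⟨k, Or.inl hk⟩
    · exact ⟨Classical.arbitrary ι, Or.inr hv⟩
  have hSs : Monotone fun k => F.sub (S k) := fun j k hjk => F.sub_mono (hS hjk)
  obtain ⟨g, hg1, hg2⟩ := SymmetricFamily.glue_emb (K := K) (fun k => F.sub (S k)) hSs
    (fun k => (θ k).comp (F.sub (S k)).subtype)
    (fun k => AEC.Emb.comp (hθ k).emb (AEC.emb_subtype.2 (F.le_sub _)))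
    (by
      intro j k hjk x
      rcases hjk.eq_or_lt with rfl | h
      · rfl
      · refine hR j k h x.1 (F.sub_mono ?_ x.2)
        rintro v (hv | hv)
        · exact Or.inl hv
        · exact Or.inr fun h => hv (Set.mem_iUnion.2 ⟨k, h⟩))
  have htop : (⨆ k, F.sub (S k)) = ⊤ := by
    rw [eq_top_iff]
    intro x _
    obtain ⟨k, hk⟩ := F.cover S hS hSc x
    exact le_iSup (fun k => F.sub (S k)) k hk
  have hGe : ∃ G : F.obj V ↪[L] F.obj W, K.Emb G ∧ ∀ k, ∀ u ∈ F.sub (S k), G u = θ k u := by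
    have hmem : ∀ x : F.obj V, x ∈ ⨆ k, F.sub (S k) := fun x => by
      rw [htop]
      trivial
    have hle : K.le (⨆ k, F.sub (S k)) := K.chain_smooth _ (fun j k hjk => hSs hjk) fun k => F.le_sub _
    obtain ⟨e, he⟩ := exists_equiv_of_surj (⨆ k, F.sub (S k)).subtype fun x => ⟨⟨x, hmem x⟩, rfl⟩
    refine ⟨g.comp e.symm.toEmbedding, hg1.comp (AEC.Emb.of_equiv _ (F.mem_obj V)), ?_⟩
    intro k u hu
    have h1 := hg2 k ⟨u, hu⟩
    have h2 : e.symm u = Substructure.inclusion (le_iSup (fun k => F.sub (S k)) k) ⟨u, hu⟩ := by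
      rw [← e.symm_apply_apply (Substructure.inclusion (le_iSup (fun k => F.sub (S k)) k) ⟨u, hu⟩)]
      rw [he]
      rfl
    change g (e.symm u) = _
    rw [h2]
    exact h1
  obtain ⟨G, hG1, hG2⟩ := hGe
  refine ⟨G, Ind.of_local fun w hw => ?_, hG2⟩
  obtain ⟨k, hk⟩ := exists_mem_of_finite S hS hSc hw
  refine ⟨S k, hk, ?_⟩
  have h1 : G.comp (F.map (inc (S k))) = (θ k).comp (F.map (inc (S k))) := by
    apply Language.Embedding.ext
    intro c
    exact hG2 k _ ⟨c, rfl⟩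
  rw [h1]
  refine ((ind_map (inc (S k))).comp (hθ k)).congr fun v => ?_
  change tt i s (M k) v.1 = tt i s (⋃ k, M k) v.1
  rcases v.2 with hv | hv
  · rw [tt_mem _ _ hv, tt_mem _ _ (Set.mem_iUnion.2 ⟨k, hv⟩)]
  · rw [tt_notMem _ _ hv, tt_notMem _ _ fun h => hv (Set.mem_iUnion.2 ⟨k, h⟩)]

/-- One move more. -/
theorem Moves.step (hF : F.Moves) {V W : Type u} [LinearOrder V] [LinearOrder W]
    (G : F.obj V ↪[L] F.obj W) {t : V → W} (hG : F.Ind G t) (x : V) (y : W)
    (hy : ∀ v, v ≠ x → t v ≠ y) :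
    ∃ G' : F.obj V ↪[L] F.obj W, (∃ t', F.Ind G' t' ∧ t' x = y ∧ ∀ v, v ≠ x → t' v = t v) ∧
      ∀ u ∈ F.sub {x}ᶜ, G' u = G u := by
  let P : Set W := t '' {x}ᶜ
  have hxP : t x ∉ P := by
    rintro ⟨v, hv, h⟩
    exact hv (hG.inj h)
  have hyP : y ∉ P := by
    rintro ⟨v, hv, h⟩
    exact hy v hv h
  obtain ⟨θ, ⟨tθ, hθ1, hθ2, hθ3⟩, hθ4⟩ := hF W (t x) y P hxP hyP
  have hmemP : ∀ v, t v ∈ insert (t x) P := by
    intro v
    by_cases hv : v = x
    · exact Or.inl (by rw [hv])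
    · exact Or.inr ⟨v, hv, rfl⟩
  obtain ⟨g, hg, htg⟩ := exists_cores_ind hG (inc (insert (t x) P))
    (fun v => ⟨t v, hmemP v⟩) fun v => rfl
  have hfix : ∀ u ∈ F.sub {x}ᶜ, θ (g u) = G u := by
    intro u hu
    have h1 : G u ∈ F.sub P := (hG.mem _ u).2 hu
    obtain ⟨b, hb⟩ := h1
    have hb' : F.map (inc P) b = G u := hb
    have h2 : g u = F.map (incl (Set.subset_insert (t x) P)) b := by
      apply (F.map (inc (insert (t x) P))).injective
      rw [hg, ← hb', F.map_incl]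
    rw [h2, hθ4, hb']
  refine ⟨θ.comp g, ⟨_, htg.comp hθ1, ?_, ?_⟩, hfix⟩
  · exact hθ2 _ rfl
  · intro v hv
    exact hθ3 _ ⟨v, hv, rfl⟩

/-- Simultaneous moves of many points. -/
theorem Moves.many (hF : F.Moves) {V W : Type u} [LinearOrder V] [LinearOrder W] (i : V ↪o W)
    (s : V → W) (X : Set V) (hs : ∀ x ∈ X, ∀ y ∈ X, s x = s y → x = y)
    (hX : ∀ x ∈ X, ∀ v, s x ≠ i v) :
    ∃ G : F.obj V ↪[L] F.obj W, F.Ind G (tt i s X) ∧ ∀ u ∈ F.sub Xᶜ, G u = F.map i u := by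
  classical
  let J : Type u := (#X).ord.ToType
  obtain ⟨en⟩ : Nonempty (J ≃ X) := Cardinal.eq.1 (mk_ord_toType _)
  let M : WithBot J → Set V := fun a => {v | ∃ j : J, (j : WithBot J) ≤ a ∧ (en j).1 = v}
  have hM : Monotone M := by
    rintro a b hab v ⟨j, hj, hv⟩
    exact ⟨j, hj.trans hab, hv⟩
  have hMbot : M ⊥ = ∅ := by
    rw [Set.eq_empty_iff_forall_notMem]
    rintro v ⟨j, hj, -⟩
    exact (WithBot.bot_lt_coe j).not_ge hj
  have hbase : F.Ind (F.map i) (tt i s ∅) := by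
    refine (ind_map i).congr fun v => ?_
    rw [tt_notMem _ _ (Set.notMem_empty v)]
  obtain ⟨θ, hθ1, hθ2⟩ := exists_rel_family (I := WithBot J)
    (fun _ => F.obj V ↪[L] F.obj W)
    (fun b a fb fa => ∀ u ∈ F.sub {v | v ∈ M b ∨ v ∉ M a}, fa u = fb u)
    (fun a f => F.Ind f (tt i s (M a)) ∧ (a = ⊥ → f = F.map i))
    (by
      intro a f hf1 hf2
      induction a using WithBot.recBotCoe with
      | bot =>
        refine ⟨F.map i, ⟨by rw [hMbot]; exact hbase, fun _ => rfl⟩, fun b hb => ?_⟩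
        exact absurd hb not_lt_bot
      | coe j =>
        have hne : Nonempty (Set.Iio (j : WithBot J)) := ⟨⟨⊥, WithBot.bot_lt_coe j⟩⟩
        obtain ⟨G, hG1, hG2⟩ := exists_lim (ι := Set.Iio (j : WithBot J)) i s (fun b => M b.1)
          (fun b c hbc => hM hbc) (fun b => f b.1 b.2) (fun b => (hf1 b.1 b.2).1)
          (fun b c hbc => hf2 b.1 c.1 hbc c.2)
        have hU : ∀ v, v ∈ (⋃ b : Set.Iio (j : WithBot J), M b.1) → v ∈ X ∧ v ≠ (en j).1 := by
          intro v hv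
          obtain ⟨⟨b, hb⟩, j', hj', rfl⟩ := Set.mem_iUnion.1 hv
          refine ⟨(en j').2, fun h => ?_⟩
          have h1 : j' = j := en.injective (Subtype.ext h)
          rw [h1] at hj'
          exact absurd hb (not_lt.2 hj')
        obtain ⟨G', ⟨t', ht1, ht2, ht3⟩, hG'⟩ := hF.step G hG1 (en j).1 (s (en j).1) (by
          intro v hv h
          by_cases hvU : v ∈ (⋃ b : Set.Iio (j : WithBot J), M b.1)
          · rw [tt_mem _ _ hvU] at h
            exact hv (hs _ (hU v hvU).1 _ (en j).2 h)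
          · rw [tt_notMem _ _ hvU] at h
            exact hX _ (en j).2 v h.symm)
        have hMj : ∀ v, v ∈ M (j : WithBot J) ↔ v = (en j).1 ∨
            v ∈ (⋃ b : Set.Iio (j : WithBot J), M b.1) := by
          intro v
          constructor
          · rintro ⟨j', hj', rfl⟩
            rcases (WithBot.coe_le_coe.1 hj').eq_or_lt with rfl | h
            · exact Or.inl rfl
            · exact Or.inr (Set.mem_iUnion.2 ⟨⟨j', WithBot.coe_lt_coe.2 h⟩, j', le_rfl, rfl⟩)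
          · rintro (rfl | h)
            · exact ⟨j, le_rfl, rfl⟩
            · obtain ⟨⟨b, hb⟩, h1⟩ := Set.mem_iUnion.1 h
              exact hM (le_of_lt hb) h1
        refine ⟨G', ⟨ht1.congr fun v => ?_, fun h => absurd h WithBot.coe_ne_bot⟩,
          fun b hb u hu => ?_⟩
        · by_cases hv : v = (en j).1
          · rw [tt_mem _ _ ((hMj v).2 (Or.inl hv)), hv, ht2]
          · rw [ht3 v hv]
            by_cases hvU : v ∈ (⋃ b : Set.Iio (j : WithBot J), M b.1)
            · rw [tt_mem _ _ hvU, tt_mem _ _ ((hMj v).2 (Or.inr hvU))]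
            · rw [tt_notMem _ _ hvU, tt_notMem _ _ fun h => ((hMj v).1 h).elim hv hvU]
        · rw [hG' u, hG2 ⟨b, hb⟩ u]
          · refine F.sub_mono ?_ hu
            rintro v (hv | hv)
            · exact Or.inl hv
            · exact Or.inr fun h => hv ((hMj v).2 (Or.inr h))
          · refine F.sub_mono ?_ hu
            rintro v (hv | hv) hvj
            · have h1 : v ∈ (⋃ b : Set.Iio (j : WithBot J), M b.1) :=
                Set.mem_iUnion.2 ⟨⟨b, hb⟩, hv⟩
              exact (hU v h1).2 hvj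
            · exact hv ((hMj v).2 (Or.inl hvj)))
  obtain ⟨G, hG1, hG2⟩ := exists_lim (ι := WithBot J) i s M hM θ (fun a => (hθ1 a).1)
    (fun b c hbc => hθ2 b c hbc)
  have hUX : (⋃ a, M a) = X := by
    ext v
    constructor
    · intro hv
      obtain ⟨a, j, -, rfl⟩ := Set.mem_iUnion.1 hv
      exact (en j).2
    · intro hv
      refine Set.mem_iUnion.2 ⟨(en.symm ⟨v, hv⟩ : J), en.symm ⟨v, hv⟩, le_rfl, ?_⟩
      rw [en.apply_symm_apply]
  rw [hUX] at hG1 hG2
  refine ⟨G, hG1, fun u hu => ?_⟩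
  rw [hG2 ⊥ u (F.sub_mono (fun v hv => Or.inr hv) hu), (hθ1 ⊥).2 rfl]

end Fam

end Vale.Agent.P307.Pw
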