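import Vale.Agent.P307.Gw.Defs

/-! Members whose strong substructures form the lattice of flats of a matroid with conjugate
bases. -/

universe u

open FirstOrder Cardinal Set Function Language

namespace Vale.Agent.P307.Pw

open Gw (flat)

variable {L : Language.{u, u}}

/-- The strong substructures of `M`, ordered by inclusion, form the lattice of flats of a matroid,
any two bases of which are conjugate: some automorphism of `M` carries the set of the substructures
of the elements of `B` onto the set of the substructures of the elements of `B'`. -/
def IsGeo1 (K : AEC L) (M : Type u) [L.Structure M] : Prop :=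
  ∃ (X : Type u) (Mt : Matroid X)
    (e : {F : Set X // Mt.IsFlat F} ≃o {S : L.Substructure M // K.le S}),
    ∀ B B' : Set X, Mt.IsBase B → Mt.IsBase B' → ∃ σ : M ≃[L] M,
      (∀ b ∈ B, ∃ b' ∈ B', (e (flat Mt {b})).1.map σ.toHom = (e (flat Mt {b'})).1) ∧
      ∀ b' ∈ B', ∃ b ∈ B, (e (flat Mt {b})).1.map σ.toHom = (e (flat Mt {b'})).1

end Vale.Agent.P307.Pw
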