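import Vale.Agent.P307.Gw.Defs
import Vale.Agent.P307.Ow.EM2
import Vale.Agent.P307.Gw.Geo

/-! Members whose strong substructures form the lattice of flats of a matroid: spans, strong
embeddings. -/

universe u

open FirstOrder Cardinal Set Function Language

namespace Vale.Agent.P307.Pw

open Ow (le_map le_comap map_comap map_le_range)
open Gw (flat restrict_closure_flat isFlat_restrict indep_range_iff)

variable {L : Language.{u, u}}

/-- A member with its matroid. -/
structure Geo (K : AEC L) (M : Type u) [L.Structure M] where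
  X : Type u
  Mt : Matroid X
  e : {F : Set X // Mt.IsFlat F} ≃o {S : L.Substructure M // K.le S}

namespace Geo

variable {K : AEC L} {M N : Type u} [L.Structure M] [L.Structure N]

/-- The strong substructure which belongs to a set. -/
def sp (g : Geo K M) (A : Set g.X) : L.Substructure M := (g.e (flat g.Mt A)).1

variable (g : Geo K M) (h : Geo K N)

theorem le_sp (A : Set g.X) : K.le (g.sp A) := (g.e _).2

theorem sp_le_sp {A B : Set g.X} : g.sp A ≤ g.sp B ↔ g.Mt.closure A ⊆ g.Mt.closure B :=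
  g.e.le_iff_le (x := flat g.Mt A) (y := flat g.Mt B)

theorem sp_mono {A B : Set g.X} (h : A ⊆ B) : g.sp A ≤ g.sp B :=
  g.sp_le_sp.2 (g.Mt.closure_subset_closure h)

theorem pt_le_sp {x : g.X} (hx : x ∈ g.Mt.E) {B : Set g.X} :
    g.sp {x} ≤ g.sp B ↔ x ∈ g.Mt.closure B := by
  rw [sp_le_sp, g.Mt.closure_subset_closure_iff_subset_closure (singleton_subset_iff.2 hx),
    singleton_subset_iff]

theorem exists_sp {S : L.Substructure M} (hS : K.le S) :
    ∃ F : Set g.X, g.Mt.IsFlat F ∧ g.sp F = S := by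
  refine ⟨(g.e.symm ⟨S, hS⟩).1, (g.e.symm ⟨S, hS⟩).2, ?_⟩
  have h1 : flat g.Mt (g.e.symm ⟨S, hS⟩).1 = g.e.symm ⟨S, hS⟩ :=
    Subtype.ext (g.e.symm ⟨S, hS⟩).2.closure
  rw [sp, h1, OrderIso.apply_symm_apply]

theorem sp_le_iff {A : Set g.X} (hA : A ⊆ g.Mt.E) {T : L.Substructure M} (hT : K.le T) :
    g.sp A ≤ T ↔ ∀ a ∈ A, g.sp {a} ≤ T := by
  constructor
  · intro h1 a ha
    exact (g.sp_mono (singleton_subset_iff.2 ha)).trans h1
  · intro h1
    obtain ⟨F, hF, rfl⟩ := g.exists_sp hT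
    rw [sp_le_sp, hF.closure]
    have h2 : A ⊆ F := fun a ha => by
      have h3 := (g.pt_le_sp (hA ha)).1 (h1 a ha)
      rwa [hF.closure] at h3
    calc g.Mt.closure A ⊆ g.Mt.closure F := g.Mt.closure_subset_closure h2
      _ = F := hF.closure

/-- Strong embeddings preserve spans. -/
theorem map_sp (φ : M ↪[L] N) (hφ : K.Emb φ) {ι : Type u} (r : ι → g.X) (r' : ι → h.X)
    (hr : ∀ i, r i ∈ g.Mt.E) (hr' : ∀ i, r' i ∈ h.Mt.E) (A : Set ι)
    (hrr : ∀ i ∈ A, (g.sp {r i}).map φ.toHom = h.sp {r' i}) :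
    (g.sp (r '' A)).map φ.toHom = h.sp (r' '' A) := by
  have h1 : h.sp (r' '' A) ≤ (g.sp (r '' A)).map φ.toHom := by
    rw [h.sp_le_iff (by rintro _ ⟨i, -, rfl⟩; exact hr' i) (le_map φ hφ (g.le_sp _))]
    rintro _ ⟨i, hi, rfl⟩
    rw [← hrr i hi]
    exact Substructure.monotone_map (g.sp_mono (singleton_subset_iff.2 ⟨i, hi, rfl⟩))
  refine le_antisymm ?_ h1
  have h2 : h.sp (r' '' A) ≤ φ.toHom.range := h1.trans (map_le_range φ _)
  have h3 : g.sp (r '' A) ≤ (h.sp (r' '' A)).comap φ.toHom := by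
    rw [g.sp_le_iff (by rintro _ ⟨i, -, rfl⟩; exact hr i) (le_comap φ hφ (h.le_sp _) h2)]
    rintro _ ⟨i, hi, rfl⟩
    rw [← Substructure.map_le_iff_le_comap, hrr i hi]
    exact h.sp_mono (singleton_subset_iff.2 ⟨i, hi, rfl⟩)
  rwa [← Substructure.map_le_iff_le_comap] at h3

theorem map_bot (φ : M ↪[L] N) (hφ : K.Emb φ) : (g.sp ∅).map φ.toHom = h.sp ∅ := by
  have h1 := g.map_sp h φ hφ (ι := PEmpty) (fun i => i.elim) (fun i => i.elim)
    (fun i => i.elim) (fun i => i.elim) ∅ (fun i => i.elim)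
  rwa [image_empty, image_empty] at h1

/-- Strong embeddings carry points to points. -/
theorem exists_pt (φ : M ↪[L] N) (hφ : K.Emb φ) {x : g.X} (hx : x ∈ g.Mt.E)
    (hx' : x ∉ g.Mt.closure ∅) : ∃ y ∈ h.Mt.E, (g.sp {x}).map φ.toHom = h.sp {y} := by
  obtain ⟨F', hF', h1⟩ := h.exists_sp (le_map φ hφ (g.le_sp {x}))
  have h2 : ¬ F' ⊆ h.Mt.closure ∅ := by
    intro h2
    apply hx'
    rw [← g.pt_le_sp hx, ← Substructure.map_le_map_iff_of_injective (f := φ.toHom) φ.injective,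
      g.map_bot h φ hφ, ← h1, h.sp_le_sp, hF'.closure]
    exact h2
  obtain ⟨y, hy, hy'⟩ := not_subset.1 h2
  have hyE : y ∈ h.Mt.E := hF'.subset_ground hy
  have h3 : h.sp {y} ≤ (g.sp {x}).map φ.toHom := by
    rw [← h1, h.pt_le_sp hyE, hF'.closure]
    exact hy
  have h4 : h.sp {y} ≤ φ.toHom.range := h3.trans (map_le_range φ _)
  obtain ⟨F, hF, h5⟩ := g.exists_sp (le_comap φ hφ (h.le_sp {y}) h4)
  have h6 : (g.sp F).map φ.toHom = h.sp {y} := by rw [h5, map_comap φ h4]
  have h7 : ¬ F ⊆ g.Mt.closure ∅ := by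
    intro h7
    apply hy'
    rw [← h.pt_le_sp hyE, ← h6, ← g.map_bot h φ hφ]
    apply Substructure.monotone_map
    rw [g.sp_le_sp, hF.closure]
    exact h7
  obtain ⟨z, hz, hz'⟩ := not_subset.1 h7
  have hzE : z ∈ g.Mt.E := hF.subset_ground hz
  have h8 : z ∈ g.Mt.closure {x} := by
    rw [← g.pt_le_sp hzE]
    have h9 : g.sp {z} ≤ g.sp F := by
      rw [g.pt_le_sp hzE, hF.closure]
      exact hz
    refine h9.trans ?_
    rw [← Substructure.map_le_map_iff_of_injective (f := φ.toHom) φ.injective, h6]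
    exact h3
  have h9 : x ∈ g.Mt.closure {z} := by
    have h10 : z ∈ g.Mt.closure (insert x ∅) \ g.Mt.closure ∅ := by
      rw [insert_empty_eq]
      exact ⟨h8, hz'⟩
    have h11 := (Matroid.closure_exchange h10).1
    rwa [insert_empty_eq] at h11
  refine ⟨y, hyE, le_antisymm ?_ h3⟩
  rw [← h6]
  apply Substructure.monotone_map
  rw [g.pt_le_sp hx, hF.closure]
  have h10 := g.Mt.closure_subset_closure (singleton_subset_iff.2 hz) h9
  rwa [hF.closure] at h10

/-- Strong embeddings carry independent families to independent families. -/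
theorem push (φ : M ↪[L] N) (hφ : K.Emb φ) {ι : Type u} (r : ι → g.X) (hr : Injective r)
    (hI : g.Mt.Indep (range r)) : ∃ r' : ι → h.X, Injective r' ∧ h.Mt.Indep (range r') ∧
      ∀ A : Set ι, (g.sp (r '' A)).map φ.toHom = h.sp (r' '' A) := by
  have hrE : ∀ i, r i ∈ g.Mt.E := fun i => hI.subset_ground ⟨i, rfl⟩
  have h0 := (indep_range_iff r hrE).1 ⟨hr, hI⟩
  choose r' hr'E hr' using fun i => g.exists_pt h φ hφ (hrE i) (fun h1 =>
    h0 i (g.Mt.closure_subset_closure (empty_subset _) h1))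
  have hm : ∀ A : Set ι, (g.sp (r '' A)).map φ.toHom = h.sp (r' '' A) := fun A =>
    g.map_sp h φ hφ r r' hrE hr'E A fun i _ => hr' i
  obtain ⟨h1, h2⟩ := (indep_range_iff r' hr'E).2 fun i hi => by
    apply h0 i
    rw [← g.pt_le_sp (hrE i), ← Substructure.map_le_map_iff_of_injective (f := φ.toHom)
      φ.injective, hr' i, hm, h.pt_le_sp (hr'E i)]
    exact hi
  exact ⟨r', h1, h2, hm⟩

end Geo

end Vale.Agent.P307.Pw
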