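import Vale.Agent.P307.Pw.Aut
import Vale.Agent.P307.H227.Move
import Vale.Agent.P307.H67.Few
import Vale.Agent.P307.H67.Cuts
import Mathlib.Tactic.Order
import Mathlib.SetTheory.Cardinal.Pigeonhole

/-!
Categoricity gives moves: one point of a linear order can be moved over any interval.
-/

universe u

open FirstOrder Cardinal Function Language

namespace Vale.Agent.P307.Pw

open H227

variable {L : Language.{u, u}}

namespace Fam

variable {K : AEC L} {F : Fam K}

/-- The property which we derive from categoricity: a point `x` outside `P` can be moved to any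
other point `y` outside `P` over `obj P`. -/
def Moves (F : Fam K) : Prop :=
  ∀ (W : Type u) [LinearOrder W] (x y : W) (P : Set W), x ∉ P → y ∉ P →
    ∃ θ : F.obj ↥(insert x P) ↪[L] F.obj W,
      (∃ t : ↥(insert x P) → W, F.Ind θ t ∧ (∀ z, z.1 = x → t z = y) ∧
        ∀ z, z.1 ∈ P → t z = z.1) ∧
      ∀ a : F.obj P, θ (F.map (incl (Set.subset_insert x P)) a) = F.map (inc P) a

theorem moves_of_unbounded {l : Cardinal.{u}} (hK : F.Ok l)
    (hunb : ∀ χ : Cardinal.{u}, ∃ κ, χ ≤ κ ∧ K.CategoricalIn κ ∧ F.HomAt κ) : F.Moves := by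
  classical
  intro W _ x y P hxP hyP
  by_cases hxy : x = y
  · subst hxy
    exact ⟨F.map (inc _), ⟨inc (insert x P), ind_map (inc (insert x P)), fun z hz => hz,
      fun z _ => rfl⟩, fun a => F.map_incl _ a⟩
  set m : Cardinal.{u} := max ℵ₀ #W with hm
  have hm0 : ℵ₀ ≤ m := le_max_left _ _
  obtain ⟨D', _, D, Y, -, hD, hY, hYD, hsep⟩ := H67.exists_many_cuts hm0
  obtain ⟨κ, hκ1, hκ2, hκ3⟩ := hunb (max (Order.succ (max l ℵ₀)) #(D' ×ₗ W))
  have hκl : max l ℵ₀ < κ := Order.succ_le_iff.1 ((le_max_left _ _).trans hκ1)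
  have hκ0 : ℵ₀ ≤ κ := (le_max_right l ℵ₀).trans hκl.le
  let Q : Type u := κ.ord.ToType
  have hQ : #Q = κ := mk_ord_toType κ
  let Ω : Type u := (D' ×ₗ W) ⊕ₗ Q
  have hΩ : #Ω = κ := by
    change #((D' ×ₗ W) ⊕ Q) = κ
    rw [mk_sum, lift_id, lift_id, hQ]
    exact add_eq_right hκ0 ((le_max_right _ _).trans hκ1)
  obtain ⟨θ₀⟩ := hκ2.2 (F.obj Ω) (F.obj Q) (F.mem_obj Ω) (F.mem_obj Q)
    (by rw [card_obj hK Ω (by rwa [hΩ]), hΩ]) (by rw [card_obj hK Q (by rwa [hQ]), hQ])
  have hθ₀ : K.Emb θ₀.toEmbedding := AEC.Emb.of_equiv _ (F.mem_obj Ω)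
  obtain ⟨σ, t, ht₀⟩ := hκ3 Ω Q hQ θ₀.toEmbedding hθ₀
  let θ : F.obj Ω ≃[L] F.obj Q := σ.comp θ₀
  have ht : F.Ind θ.toEmbedding t := ht₀
  have hsurj : Surjective t := by
    have h1 : F.sub (Set.univ : Set Q) ≤ F.sub (Set.range t) := by
      intro b _
      have h2 := ht.mem_range (θ.symm b)
      change θ (θ.symm b) ∈ _ at h2
      rwa [θ.apply_symm_apply] at h2
    exact fun q => F.sub_le_iff.1 h1 (Set.mem_univ q)
  let te : Ω ≃ Q := Equiv.ofBijective t ⟨ht.inj, hsurj⟩
  let s : Q → Ω := te.symm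
  have hst : ∀ z, s (t z) = z := fun z => te.symm_apply_apply z
  have hts : ∀ q, t (s q) = q := fun q => te.apply_symm_apply q
  have hs : F.Ind θ.symm.toEmbedding s := by
    refine ht.of_comp ?_
    have h1 : θ.toEmbedding.comp θ.symm.toEmbedding = Language.Embedding.refl L _ := by
      apply Language.Embedding.ext
      intro a
      exact θ.apply_symm_apply a
    have h2 : t ∘ s = id := funext hts
    rw [h1, h2]
    refine ⟨injective_id, fun A a => ?_, fun b _ => ⟨b, rfl⟩⟩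
    rw [Set.image_id]
    rfl
  let pl : (D' ×ₗ W) ↪o Ω := OrderEmbedding.ofStrictMono _ Sum.Lex.inl_strictMono
  let pt : D' → W → Ω := fun d w => pl (toLex (d, w))
  let B : Set Q := {q | ∃ d ∈ D, ∃ w, q = t (pt d w)}
  have hB : #B ≤ m := by
    have h1 : #B ≤ #(D × W) :=
      mk_le_of_surjective (f := fun p : D × W => (⟨t (pt p.1.1 p.2), p.1.1, p.1.2, p.2, rfl⟩ : B))
        (by
          rintro ⟨_, d, hd, w, rfl⟩
          exact ⟨(⟨d, hd⟩, w), rfl⟩)
    refine h1.trans ?_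
    rw [mk_prod, lift_id, lift_id]
    exact (mul_le_mul' hD (le_max_right _ _)).trans (mul_eq_self hm0).le
  have hcode : #(Option B × Option B) ≤ m := by
    simp only [mk_prod, lift_id, mk_option]
    have h1 : #B + 1 ≤ m := add_le_of_le hm0 hB (one_le_aleph0.trans hm0)
    exact (mul_le_mul' h1 h1).trans (mul_eq_self hm0).le
  obtain ⟨f, hf1, hf2, hf3⟩ := exists_four hm0 _ hcode Y hY
    (fun d => H67.cutCode B (t (pt d x)))
  obtain ⟨d1, hd1, h01, h11⟩ := hsep _ (hf1 0) _ (hf1 1) (hf2 (by decide))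
  obtain ⟨d2, hd2, h12, h22⟩ := hsep _ (hf1 1) _ (hf1 2) (hf2 (by decide))
  obtain ⟨d3, hd3, h23, -⟩ := hsep _ (hf1 2) _ (hf1 3) (hf2 (by decide))
  have hlh : min x y < max x y := by
    rcases lt_or_gt_of_ne hxy with h | h
    · rwa [min_eq_left h.le, max_eq_right h.le]
    · rwa [min_eq_right h.le, max_eq_left h.le]
  obtain ⟨ε₀, he1, he2, he3⟩ := exists_eps hlh x h11 h12 h22 h23
  let ε : W ↪o Ω := ε₀.trans pl
  have hεx : ∃ i, ε x = pt (f i) x := by
    rcases lt_or_gt_of_ne hxy with h | h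
    · refine ⟨1, ?_⟩
      rw [min_eq_left h.le] at he1
      change pl (ε₀ x) = _
      rw [he1]
    · refine ⟨2, ?_⟩
      rw [max_eq_left h.le] at he2
      change pl (ε₀ x) = _
      rw [he2]
  have hεy : ∃ i, ε y = pt (f i) x := by
    rcases lt_or_gt_of_ne hxy with h | h
    · refine ⟨2, ?_⟩
      rw [max_eq_right h.le] at he2
      change pl (ε₀ y) = _
      rw [he2]
    · refine ⟨1, ?_⟩
      rw [min_eq_right h.le] at he1
      change pl (ε₀ y) = _
      rw [he1]
  have hεP : ∀ z ∈ P, t (ε z) ∈ B := by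
    intro z hz
    have hzx : z ≠ x := fun h => hxP (by rwa [← h])
    have hzy : z ≠ y := fun h => hyP (by rwa [← h])
    obtain ⟨d, hd, h⟩ := he3 z (by
      rcases min_choice x y with h | h <;> rw [h] <;> assumption) (by
      rcases max_choice x y with h | h <;> rw [h] <;> assumption)
    refine ⟨d, ?_, z, ?_⟩
    · rcases hd with rfl | rfl | rfl <;> assumption
    · change t (pl (ε₀ z)) = _
      rw [h]
  have hcxy : H67.cutCode B (t (ε x)) = H67.cutCode B (t (ε y)) := by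
    obtain ⟨i, hi⟩ := hεx
    obtain ⟨j, hj⟩ := hεy
    rw [hi, hj]
    exact hf3 i j
  have hxB : t (ε x) ∉ B := by
    rintro ⟨d, hd, w, h⟩
    obtain ⟨i, hi⟩ := hεx
    rw [hi] at h
    have h1 := ht.inj h
    have h2 : toLex (f i, x) = toLex (d, w) := pl.injective h1
    have h3 : f i = d := congrArg Prod.fst (toLex.injective h2)
    exact hYD _ (hf1 i) (h3 ▸ hd)
  obtain ⟨η, hη⟩ := exists_eta B (t (ε x)) (t (ε y)) hcxy
  have hΨ1 : F.Ind (θ.toEmbedding.comp (F.map ((inc (insert x P)).trans ε)))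
      (t ∘ (inc (insert x P)).trans ε) := (ind_map _).comp ht
  have hmemB : ∀ z : ↥(insert x P), t (ε z.1) ∈ insert (t (ε x)) B := by
    intro z
    rcases z.2 with h | h
    · exact Or.inl (by rw [h])
    · exact Or.inr (hεP _ h)
  obtain ⟨ψ, hψ, ht2⟩ := exists_cores_ind hΨ1 (inc (insert (t (ε x)) B))
    (fun z => ⟨t (ε z.1), hmemB z⟩) fun z => rfl
  set t2 : ↥(insert x P) → ↥(insert (t (ε x)) B) := fun z => ⟨t (ε z.1), hmemB z⟩ with ht2def
  have ht2v : ∀ z, (t2 z).1 = t (ε z.1) := fun z => rfl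
  have hΨ : F.Ind (θ.symm.toEmbedding.comp ((F.map η).comp ψ)) (s ∘ (η ∘ t2)) :=
    (ht2.comp (ind_map η)).comp hs
  have hx2 : ∀ z, z.1 = x → (s ∘ (η ∘ t2)) z = ε y := by
    intro z hz
    change s (η (t2 z)) = _
    rw [hη, ht2v, hz, if_pos rfl, hst]
  have hP2 : ∀ z, z.1 ∈ P → (s ∘ (η ∘ t2)) z = ε z.1 := by
    intro z hz
    have h1 : t (ε z.1) ≠ t (ε x) := fun h => hxB (h ▸ hεP _ hz)
    change s (η (t2 z)) = _
    rw [hη, ht2v, if_neg h1, hst]
  obtain ⟨θ', hθ', ht'⟩ := exists_cores_ind hΨ ε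
    (fun z : ↥(insert x P) => if z.1 = x then y else z.1) fun z => by
      by_cases hz : z.1 = x
      · rw [if_pos hz, hx2 z hz]
      · rw [if_neg hz, hP2 z (z.2.resolve_left hz)]
  refine ⟨θ', ⟨_, ht', fun z hz => if_pos hz, fun z hz => if_neg (by
    intro (h : z.1 = x)
    exact hxP (by rwa [← h]))⟩,
    fun a => ?_⟩
  · apply (F.map ε).injective
    rw [hθ']
    change θ.symm (F.map η (ψ (F.map (incl (Set.subset_insert x P)) a))) = _
    have h1 : F.map (inc (insert (t (ε x)) B)) (ψ (F.map (incl (Set.subset_insert x P)) a)) =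
        θ (F.map ε (F.map (inc P) a)) := by
      rw [hψ]
      change θ (F.map ((inc (insert x P)).trans ε) _) = _
      rw [F.map_trans, F.map_incl]
    have h2 : θ (F.map ε (F.map (inc P) a)) ∈ F.sub B := by
      have h3 : θ (F.map ε (F.map (inc P) a)) ∈ F.sub (t '' (ε '' P)) :=
        (ht.mem _ _).2 ((F.map_mem_sub_image ε).2 ⟨a, rfl⟩)
      refine F.sub_mono ?_ h3
      rintro _ ⟨_, ⟨z, hz, rfl⟩, rfl⟩
      exact hεP z hz
    obtain ⟨b, hb⟩ := h2
    have hb' : F.map (inc B) b = θ (F.map ε (F.map (inc P) a)) := hb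
    have h3 : ψ (F.map (incl (Set.subset_insert x P)) a) =
        F.map (incl (Set.subset_insert (t (ε x)) B)) b := by
      apply (F.map (inc (insert (t (ε x)) B))).injective
      rw [h1, ← hb', F.map_incl]
    have h4 : (incl (Set.subset_insert (t (ε x)) B)).trans η = inc B := by
      ext z
      change η (incl (Set.subset_insert (t (ε x)) B) z) = z.1
      rw [hη]
      have h5 : (incl (Set.subset_insert (t (ε x)) B) z).1 = z.1 := rfl
      rw [h5, if_neg]
      intro h6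
      exact hxB (h6 ▸ z.2)
    rw [h3, ← F.map_trans, h4, hb']
    exact θ.symm_apply_apply _

end Fam

end Vale.Agent.P307.Pw
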