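import Vale.Agent.P307.Pw.Geo

/-! Strong substructures of geometric members are geometric. -/

universe u

open FirstOrder Cardinal Set Function Language

namespace Vale.Agent.P307.Pw

open Ow (le_map le_comap map_comap map_le_range)
open Gw (flat restrict_closure_flat isFlat_restrict indep_range_iff)
open H227 (SymmetricFamily)

variable {L : Language.{u, u}}

namespace Geo

variable {K : AEC L} {M N : Type u} [L.Structure M] [L.Structure N]
variable (h : Geo K N)

theorem flat_val (F : {F : Set h.X // h.Mt.IsFlat F}) : flat h.Mt F.1 = F :=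
  Subtype.ext F.2.closure

/-- The flat of the image of a strong embedding. -/
noncomputable def imF (φ : M ↪[L] N) (hφ : K.Emb φ) : Set h.X := (h.e.symm ⟨φ.toHom.range, hφ⟩).1

theorem imF_flat (φ : M ↪[L] N) (hφ : K.Emb φ) : h.Mt.IsFlat (h.imF φ hφ) :=
  (h.e.symm ⟨φ.toHom.range, hφ⟩).2

theorem sp_imF (φ : M ↪[L] N) (hφ : K.Emb φ) : h.sp (h.imF φ hφ) = φ.toHom.range := by
  have h1 : flat h.Mt (h.imF φ hφ) = h.e.symm ⟨φ.toHom.range, hφ⟩ := h.flat_val _
  rw [sp, h1, OrderIso.apply_symm_apply]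

theorem sp_le_range {φ : M ↪[L] N} (hφ : K.Emb φ) {A : Set h.X} (hA : A ⊆ h.imF φ hφ) :
    h.sp A ≤ φ.toHom.range := by
  rw [← h.sp_imF φ hφ]
  exact h.sp_mono hA

theorem closure_subset_imF {φ : M ↪[L] N} (hφ : K.Emb φ) {A : Set h.X}
    (hA : A ⊆ h.imF φ hφ) : h.Mt.closure A ⊆ h.imF φ hφ := by
  have h1 := h.Mt.closure_subset_closure hA
  rwa [(h.imF_flat φ hφ).closure] at h1

/-- The order isomorphism of a strong substructure. -/
noncomputable def restrictIso (φ : M ↪[L] N) (hφ : K.Emb φ) :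
    {F : Set h.X // (h.Mt.restrict (h.imF φ hφ)).IsFlat F} ≃o
      {S : L.Substructure M // K.le S} where
  toFun F := ⟨(h.sp F.1).comap φ.toHom, le_comap φ hφ (h.le_sp _)
    (h.sp_le_range hφ ((isFlat_restrict (h.imF_flat φ hφ) _).1 F.2).2)⟩
  invFun S := ⟨(h.e.symm ⟨S.1.map φ.toHom, le_map φ hφ S.2⟩).1,
    (isFlat_restrict (h.imF_flat φ hφ) _).2 ⟨(h.e.symm _).2, by
      have h1 : h.e.symm ⟨S.1.map φ.toHom, le_map φ hφ S.2⟩ ≤
          h.e.symm ⟨φ.toHom.range, hφ⟩ := h.e.symm.monotone (map_le_range φ S.1)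
      exact h1⟩⟩
  left_inv F := by
    have h1 := (isFlat_restrict (h.imF_flat φ hφ) _).1 F.2
    apply Subtype.ext
    have h2 : (⟨((h.sp F.1).comap φ.toHom).map φ.toHom, le_map φ hφ (le_comap φ hφ (h.le_sp _)
        (h.sp_le_range hφ h1.2))⟩ : {S : L.Substructure N // K.le S}) = h.e (flat h.Mt F.1) :=
      Subtype.ext (map_comap φ (h.sp_le_range hφ h1.2))
    change (h.e.symm ⟨((h.sp F.1).comap φ.toHom).map φ.toHom, _⟩).1 = F.1
    rw [h2, OrderIso.symm_apply_apply]
    exact h1.1.closure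
  right_inv S := by
    apply Subtype.ext
    change (h.sp (h.e.symm ⟨S.1.map φ.toHom, le_map φ hφ S.2⟩).1).comap φ.toHom = S.1
    rw [sp, h.flat_val, OrderIso.apply_symm_apply]
    ext y
    constructor
    · rintro ⟨z, hz, hzy⟩
      rwa [← φ.injective hzy]
    · intro hy
      exact ⟨y, hy, rfl⟩
  map_rel_iff' {F F'} := by
    have h1 := (isFlat_restrict (h.imF_flat φ hφ) _).1 F.2
    have h2 := (isFlat_restrict (h.imF_flat φ hφ) _).1 F'.2
    change (h.sp F.1).comap φ.toHom ≤ (h.sp F'.1).comap φ.toHom ↔ F.1 ⊆ F'.1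
    constructor
    · intro h3
      have h4 := Substructure.monotone_map (f := φ.toHom) h3
      rw [map_comap φ (h.sp_le_range hφ h1.2), map_comap φ (h.sp_le_range hφ h2.2),
        h.sp_le_sp, h1.1.closure, h2.1.closure] at h4
      exact h4
    · intro h3 x hx
      exact h.sp_mono h3 hx

theorem map_restrictIso (φ : M ↪[L] N) (hφ : K.Emb φ) {A : Set h.X} (hA : A ⊆ h.imF φ hφ) :
    (h.restrictIso φ hφ (flat (h.Mt.restrict (h.imF φ hφ)) A)).1.map φ.toHom = h.sp A := by
  change ((h.sp ((h.Mt.restrict (h.imF φ hφ)).closure A)).comap φ.toHom).map φ.toHom = h.sp A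
  rw [restrict_closure_flat (h.imF_flat φ hφ), inter_eq_left.2 hA]
  have h1 : h.sp (h.Mt.closure A) = h.sp A := by
    apply le_antisymm
    · rw [h.sp_le_sp, h.Mt.closure_closure]
    · rw [h.sp_le_sp, h.Mt.closure_closure]
  rw [h1]
  exact map_comap φ (h.sp_le_range hφ hA)

/-- A strong substructure of a geometric member. -/
noncomputable def restrict (φ : M ↪[L] N) (hφ : K.Emb φ) : Geo K M where
  X := h.X
  Mt := h.Mt.restrict (h.imF φ hφ)
  e := h.restrictIso φ hφ

theorem map_restrict_sp (φ : M ↪[L] N) (hφ : K.Emb φ) {A : Set h.X} (hA : A ⊆ h.imF φ hφ) :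
    ((h.restrict φ hφ).sp A).map φ.toHom = h.sp A := h.map_restrictIso φ hφ hA

end Geo

end Vale.Agent.P307.Pw
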