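import Vale.Agent.P307.Pw.Top
import Vale.Agent.P307.Ow.Lat
import Vale.Agent.P307.Pw.Pts

/-! Standard position at unboundedly many categoricity cardinals is enough. -/

universe u

open FirstOrder Cardinal Set Function Language

namespace Vale.Agent.P307.Pw

open Ow (le_map map_le_range)
open H227 (inc incl lft rgt)

variable {L : Language.{u, u}} {K : AEC L}

namespace Fam

/-- Strong embeddings into a strong substructure of a member which belongs to an order of
cardinality `κ` can be moved to standard position together with the strong substructure. -/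
def StdAt (F : Fam K) (κ : Cardinal.{u}) : Prop :=
  ∀ (I J : Type u) [LinearOrder I] [LinearOrder J], #J = κ → ∀ θ : F.obj I ↪[L] F.obj J,
    K.Emb θ → ∀ S : L.Substructure (F.obj J), K.le S → θ.toHom.range ≤ S →
      ∃ (σ : F.obj J ≃[L] F.obj J) (t : I → J) (A : Set J),
        F.Ind (σ.toEmbedding.comp θ) t ∧ S.map σ.toEmbedding.toHom = F.sub A

variable {F : Fam K}

theorem StdAt.homAt {κ : Cardinal.{u}} (h : F.StdAt κ) : F.HomAt κ := by
  intro I J lo lo' hJ θ hθ
  obtain ⟨σ, t, -, h1, -⟩ := h I J hJ θ hθ ⊤ (K.le_refl (F.mem_obj J)) le_top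
  exact ⟨σ, t, h1⟩

theorem homGe_of_unbounded {l : Cardinal.{u}} (hK : F.Ok l)
    (hunb : ∀ χ : Cardinal.{u}, ∃ κ, χ ≤ κ ∧ K.CategoricalIn κ ∧ F.StdAt κ ∧ F.ConjAt κ)
    (hF : F.Moves) : F.HomGe l := by
  classical
  intro κ₀ hκ₀
  have hhom : F.HomAt κ₀ := by
    intro I J lo lo' hJ θ hθ
    subst hJ
    obtain ⟨κ, hκ1, -, hstd, -⟩ := hunb #J
    have hκ0 : ℵ₀ ≤ κ := ((le_max_right l ℵ₀).trans hκ₀.le).trans hκ1
    let Z : Type u := J ⊕ₗ κ.ord.ToType
    have hZ : #Z = κ := by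
      change #(J ⊕ κ.ord.ToType) = κ
      rw [mk_sum, lift_id, lift_id, mk_ord_toType]
      exact add_eq_right hκ0 hκ1
    let j : J ↪o Z := lft
    obtain ⟨τ, t', W, h1, h2⟩ := hstd I Z hZ ((F.map j).comp θ) (AEC.Emb.comp (F.emb_map j) hθ)
      (F.map j).toHom.range (F.emb_map j) (by
        rintro _ ⟨a, rfl⟩
        exact ⟨θ a, rfl⟩)
    let ρ : F.obj J ↪[L] F.obj Z := τ.toEmbedding.comp (F.map j)
    have hρtop : ρ.toHom.range = F.sub W := by
      rw [← h2]
      ext y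
      constructor
      · rintro ⟨a, rfl⟩
        exact ⟨F.map j a, ⟨a, rfl⟩, rfl⟩
      · rintro ⟨_, ⟨a, rfl⟩, rfl⟩
        exact ⟨a, rfl⟩
    obtain ⟨ρ', hρ'⟩ := F.exists_cores ρ (inc W) fun n => by
      have h1 : ρ n ∈ ρ.toHom.range := ⟨n, rfl⟩
      rw [hρtop] at h1
      refine F.sub_mono ?_ h1
      exact fun w hw => ⟨⟨w, hw⟩, rfl⟩
    have hρ's : Surjective ρ' := by
      intro y
      have h1 : F.map (inc W) y ∈ ρ.toHom.range := by
        rw [hρtop]
        exact ⟨y, rfl⟩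
      obtain ⟨x, hx⟩ := h1
      refine ⟨x, (F.map (inc W)).injective ?_⟩
      rw [hρ']
      exact hx
    obtain ⟨ε, hε⟩ := Fam.exists_equiv_of_surj ρ' hρ's
    have hcard : #(F.obj W) = #J := by
      rw [← Fam.card_obj hK J hκ₀]
      exact (mk_congr ε.toEquiv).symm
    have hW : max l ℵ₀ < #W := by
      by_contra h1
      rw [not_lt] at h1
      have h2 : #J ≤ max l ℵ₀ := by
        rw [← hcard]
        exact (Fam.card_obj_le hK W).trans
          (add_le_of_le (le_max_right _ _) h1 (le_max_left _ _))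
      exact absurd hκ₀ (not_lt.2 h2)
    have hWJ : #W = #J := by rw [← hcard, Fam.card_obj hK W hW]
    obtain ⟨β⟩ : Nonempty (W ≃ J) := Cardinal.eq.1 hWJ
    obtain ⟨e, he⟩ := hF.exists_iso β
    have htW : ∀ i, t' i ∈ W := by
      intro i
      have h3 : F.sub (range t') ≤ F.sub W := by
        intro b hb
        obtain ⟨a, rfl⟩ := h1.rng b hb
        rw [← hρtop]
        exact ⟨θ a, rfl⟩
      exact F.sub_le_iff.1 h3 ⟨i, rfl⟩
    let t'' : I → W := fun i => ⟨t' i, htW i⟩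
    have h4 : F.Ind (ε.toEmbedding.comp θ) t'' := by
      refine (ind_map (inc W)).of_comp ?_
      have h5 : (F.map (inc W)).comp (ε.toEmbedding.comp θ) =
          τ.toEmbedding.comp ((F.map j).comp θ) := by
        apply Language.Embedding.ext
        intro a
        change F.map (inc W) (ε (θ a)) = τ (F.map j (θ a))
        rw [hε, hρ']
        rfl
      rw [h5]
      exact h1.congr fun _ => rfl
    refine ⟨e.comp ε, β ∘ t'', ?_⟩
    exact h4.comp he
  refine ⟨hhom, ?_⟩
  intro J lo hJ S hS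
  have hJ' : max l ℵ₀ < #J := by rw [hJ]; exact hκ₀
  obtain ⟨κ, hκ1, -, -, hconj⟩ := hunb #J
  have hκ0 : ℵ₀ ≤ κ := ((le_max_right l ℵ₀).trans hJ'.le).trans hκ1
  let Z : Type u := J ⊕ₗ κ.ord.ToType
  have hZ : #Z = κ := by
    change #(J ⊕ κ.ord.ToType) = κ
    rw [mk_sum, lift_id, lift_id, mk_ord_toType]
    exact add_eq_right hκ0 hκ1
  let j : J ↪o Z := lft
  obtain ⟨τ, A, h1⟩ := hconj Z hZ (S.map (F.map j).toHom) (le_map (F.map j) (F.emb_map j) hS)
  let θ₀ : F.obj A ↪[L] F.obj Z := τ.symm.toEmbedding.comp (F.map (inc A))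
  have hθ₀ : θ₀.toHom.range = S.map (F.map j).toHom := by
    ext y
    constructor
    · rintro ⟨a, rfl⟩
      have h2 : F.map (inc A) a ∈ F.sub A := ⟨a, rfl⟩
      rw [← h1] at h2
      obtain ⟨z, hz, hz2⟩ := h2
      have h3 : θ₀ a = z := by
        change τ.symm (F.map (inc A) a) = z
        rw [← hz2]
        exact τ.symm_apply_apply z
      change θ₀ a ∈ S.map (F.map j).toHom
      rw [h3]
      exact hz
    · intro hy
      have h2 : τ y ∈ F.sub A := by
        rw [← h1]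
        exact ⟨y, hy, rfl⟩
      obtain ⟨a, ha⟩ := h2
      refine ⟨a, ?_⟩
      change τ.symm (F.map (inc A) a) = y
      have h3 : F.map (inc A) a = τ y := ha
      rw [h3]
      exact τ.symm_apply_apply y
  have hθ₀K : K.Emb θ₀ := by
    unfold AEC.Emb
    rw [hθ₀]
    exact le_map (F.map j) (F.emb_map j) hS
  obtain ⟨θ, hθ⟩ := F.exists_cores θ₀ j fun n => by
    have h2 : θ₀ n ∈ S.map (F.map j).toHom := by
      rw [← hθ₀]
      exact ⟨n, rfl⟩
    obtain ⟨z, -, hz⟩ := h2
    exact (F.mem_range_map j).1 ⟨z, hz⟩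
  have hθj : (F.map j).comp θ = θ₀ := by
    apply Language.Embedding.ext
    exact hθ
  have hθK : K.Emb θ := by
    refine AEC.Emb.of_comp (F.emb_map j) ?_
    rw [hθj]
    exact hθ₀K
  have hrange : θ.toHom.range = S := by
    apply strong_map_injective (F.map j)
    rw [← hθ₀, ← hθj]
    ext y
    constructor
    · rintro ⟨_, ⟨a, rfl⟩, rfl⟩
      exact ⟨a, rfl⟩
    · rintro ⟨a, rfl⟩
      exact ⟨_, ⟨a, rfl⟩, rfl⟩
  obtain ⟨σ, t, ht⟩ := hhom A J hJ θ hθK
  refine ⟨σ, range t, ?_⟩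
  ext b
  constructor
  · rintro ⟨y, hy, rfl⟩
    have hy' : y ∈ θ.toHom.range := by rw [hrange]; exact hy
    obtain ⟨a, rfl⟩ := hy'
    exact ht.mem_range a
  · intro hb
    obtain ⟨a, rfl⟩ := ht.rng b hb
    refine ⟨θ a, ?_, rfl⟩
    have h2 : θ a ∈ θ.toHom.range := ⟨a, rfl⟩
    rw [hrange] at h2
    exact h2

end Fam

/-- A class with a family indexed by linear orders, whose strong embeddings can be moved to standard
position at unboundedly many categoricity cardinals, is categorical in all large cardinals. -/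
theorem eventually_of_stdAt (F : Fam K)
    (h : ∀ χ : Cardinal.{u}, ∃ κ, χ ≤ κ ∧ K.CategoricalIn κ ∧ F.StdAt κ ∧ F.ConjAt κ) :
    ∃ χ : Cardinal.{u}, ∀ κ, χ ≤ κ → K.CategoricalIn κ := by
  obtain ⟨l, hK⟩ := F.exists_ok
  have hF : F.Moves := Fam.moves_of_unbounded hK fun χ => by
    obtain ⟨κ, h1, h2, h3, -⟩ := h χ
    exact ⟨κ, h1, h2, h3.homAt⟩
  exact eventually_of_fam F hK hF (Fam.homGe_of_unbounded hK h hF) fun χ => by
    obtain ⟨κ, h1, h2, -⟩ := h χ
    exact ⟨κ, h1, h2⟩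

end Vale.Agent.P307.Pw
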